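import Vale.Agent.P153.SLE.Stm
import Vale.Agent.P153.SLE.Drv
import Vale.Agent.P153.Wick.Stm
import Vale.Agent.P153.FKG.Defs

/-! The interface does not return to the marks, and the glue to `GEOA`: statements. -/

open Set Filter Topology Metric MeasureTheory

noncomputable section
namespace Vale.Agent.P153.Bk

open Vale.Agent.P164 (Pth)
open Vale.Agent.P153.Wick (Fr arcP arcM Qv cov YY Seq W_bv)

/-! ### Inputs -/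

/-- The lattice facts on the exploration. -/
structure Walk (L : LDom) (ε : ℤ) (h : V → ℤ) : Prop where
  fin : L.edge h (L.len h) = (L.β (L.k - 1), L.β L.k)
  adj : ∀ m ≤ L.len h, Adj (L.edge h m).1 (L.edge h m).2
  lft : ∀ m ≤ L.len h, h (L.edge h m).1 = ε ∧ (L.edge h m).1 ∈ Fr L ∪ arcP L
  rgt : ∀ m ≤ L.len h, h (L.edge h m).2 = -ε ∧ (L.edge h m).2 ∈ Fr L ∪ arcM L
  inj : InjOn (L.edge h) (Iic (L.len h))

def Lat : Prop := ∀ ψ L δ (ε : ℤ), IsJordanMap ψ → Approx ψ L δ → (ε = 1 ∨ ε = -1) →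
  ∀ᶠ n in atTop, ∀ h ∈ (L n).Hts ε, Walk (L n) ε h

/-- A connected wall that agrees with the pinned set in the annulus. -/
structure Wal (F W T O : Set V) (z : V) (r R : ℕ) : Prop where
  cW : Cnn W
  cT : Cnn T
  cO : Cnn O
  Tr : T ⊆ hex z r
  TW : Disjoint T W
  OW : Disjoint O W
  OR : Disjoint O (hex z R)
  near : (W ∩ hex z r).Nonempty
  far : ¬ W ⊆ hex z R
  ann : ∀ x ∈ hex z R, x ∉ hex z r → (x ∈ W ↔ x ∉ F)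

/-- The sites joined inside `P` and the hexagon to a pinned site. -/
def Jn (F P : Set V) (z : V) (R : ℕ) : Set V :=
  {x | ∃ y ∈ hex z R, y ∉ F ∧ Conn (both P) (hex z R) x y}

/-- A path in `P` from `T` to `O` none of whose sites is joined to a pinned site. -/
def Ev (F W T O P : Set V) (z : V) (R : ℕ) : Prop :=
  ∃ a ∈ T, ∃ b ∈ O, Conn (both P) (Wᶜ ∩ (Jn F P z R)ᶜ) a b

def K4le : Prop := ∀ η : ℝ, 0 < η → ∃ M : ℕ, ∀ (F S W T O : Set V) (z : V) (r R : ℕ), F.Finite →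
  Cnn Fᶜ → 1 ≤ r → M * r ≤ R → Wal F W T O z r R →
  Pr (dob F S) {H | Ev F W T O (le 0 H) z R} ≤ η

def K4ge : Prop := ∀ η : ℝ, 0 < η → ∃ M : ℕ, ∀ (F S W T O : Set V) (z : V) (r R : ℕ), F.Finite →
  Cnn Fᶜ → 1 ≤ r → M * r ≤ R → Wal F W T O z r R →
  Pr (dob F S) {H | Ev F W T O (ge 1 H) z R} ≤ η

/-- The parity argument. -/
def S_par : Prop := ∀ (L : LDom) (ε : ℤ) (h : V → ℤ) (O : Set V) (j₀ j₁ m j₂ : ℕ),
  (ε = 1 ∨ ε = -1) → Walk L ε h → Cnn O → (j₀ = 0 ∨ j₀ = L.len h) → j₁ < m → m < j₂ →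
  j₂ ≤ L.len h → (L.edge h j₁).1 ∈ O → (L.edge h j₂).1 ∈ O → (L.edge h m).1 ∉ O →
  (L.edge h m).2 ∉ O →
  Conn (fun _ _ => True) ({x | 0 < ε * h x} \ O) (L.edge h m).1 (L.edge h j₀).1 →
  Conn (fun _ _ => True) ({x | ε * h x < 0} \ O) (L.edge h m).2 (L.edge h j₀).2 → False

/-! ### The wall -/

/-- A walk that starts near `z`, ends far away and does not come back. -/
structure Win (a : ℕ → V) (n : ℕ) (z : V) (r r' R' R : ℕ) : Prop where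
  adj : ∀ i < n, Adj (a i) (a (i + 1))
  st : a 0 ∈ hex z r
  en : a n ∉ hex z (R + 1)
  u1 : ∀ i j, i ≤ j → j ≤ n → a j ∈ hex z r → a i ∈ hex z r'
  u2 : ∀ i j, i ≤ j → j ≤ n → a j ∈ hex z R' → a i ∈ hex z R

/-- The initial part of the walk inside the hexagon. -/
def wnd (a : ℕ → V) (n : ℕ) (z : V) (R : ℕ) : Set V :=
  {x | ∃ i ≤ n, a i = x ∧ ∀ j ≤ i, a j ∈ hex z (R + 1)}

/-- Two arcs of a lattice circle. -/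
def S_two : Prop := ∀ (z p q : V) (n : ℕ), nrm (p - z) = n → nrm (q - z) = n → p ≠ q →
  ∃ α : Bool → Set V, (∀ s, Cnn (α s) ∧ p ∈ α s ∧ q ∈ α s ∧ ∀ x ∈ α s, nrm (x - z) = n) ∧
    ∀ x ∈ α true, x ∈ α false → x = p ∨ x = q

/-- The boundary of `F` consists of two disjoint walks. -/
structure Bd (F : Set V) (a b : ℕ → V) (na nb : ℕ) : Prop where
  sub : obd F ⊆ a '' Iic na ∪ b '' Iic nb
  aF : ∀ i ≤ na, a i ∉ F
  bF : ∀ i ≤ nb, b i ∉ F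
  ne : ∀ i ≤ na, ∀ j ≤ nb, a i ≠ b j

/-- The two walls; `A` is the part of the boundary near the mark. -/
structure Two (F A : Set V) (W O : Bool → Set V) (z : V) (r r' R' R : ℕ) : Prop where
  wal : ∀ s, Wal F (W s) (hex z r) (O s) z r' R'
  sub : ∀ s, ∀ x ∈ W s, x ∈ hex z R → x ∈ A ∨ (x ∉ F ∧ x ∈ hex z R')
  out : ∀ y, nrm (y - z) = R + 1 → y ∈ A ∨ ∃ s, y ∈ O s

def S_wall : Prop := ∀ (F : Set V) (a b : ℕ → V) (na nb : ℕ) (z : V) (r r' R' R : ℕ), r < r' →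
  r' ≤ R' → R' ≤ R → Win a na z r r' R' R → Win b nb z r r' R' R → Bd F a b na nb →
  ∃ W O, Two F (wnd a na z R ∪ wnd b nb z R) W O z r r' R' R

/-- The alternative for one side of the interface. -/
def S_chain : Prop := ∀ (F P : Set V) (a b : ℕ → V) (na nb : ℕ) (W O : Bool → Set V) (z x y : V)
  (r r' R' R : ℕ), r ≤ R → R' ≤ R → Win b nb z r r' R' R → Bd F a b na nb →
  Two F (wnd a na z R ∪ wnd b nb z R) W O z r r' R' R → (∀ i ≤ na, a i ∉ P) → (∀ i ≤ nb, b i ∈ P) →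
  x ∈ hex z r → y ∉ hex z (R + 1) → Conn (fun _ _ => True) (P ∩ (F ∪ b '' Iic nb)) x y →
  Conn (fun _ _ => True) (P ∩ (F ∪ b '' Iic nb) ∩ hex z (R + 1)) x (b 0) ∨
    ∃ s, Ev F (W s) (hex z r) (O s) P z R'

/-- The interface is far, then near, then far again. -/
def Ret (L : LDom) (z : V) (r R : ℕ) (h : V → ℤ) : Prop :=
  ∃ j₁ m j₂, j₁ < m ∧ m < j₂ ∧ j₂ ≤ L.len h ∧
    ((L.edge h j₁).1 ∉ hex z (R + 1) ∧ (L.edge h j₁).2 ∉ hex z (R + 1)) ∧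
    (L.edge h j₂).1 ∉ hex z (R + 1) ∧ (L.edge h m).1 ∈ hex z r ∧ (L.edge h m).2 ∈ hex z r

/-- The estimate on the lattice. -/
def S_lat : Prop := ∀ η : ℝ, 0 < η → ∃ M : ℕ, ∀ (L : LDom) (ε : ℤ) (a b : ℕ → V) (na nb : ℕ)
  (z : V) (r r' R' R : ℕ), (ε = 1 ∨ ε = -1) → (∀ h ∈ L.Hts ε, Walk L ε h) → r < r' → r' ≤ R' →
  M * r' ≤ R' → R' ≤ R → Win a na z r r' R' R → Win b nb z r r' R' R → a '' Iic na = arcP L →
  b '' Iic nb = arcM L →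
  (a 0 = L.β 0 ∧ b 0 = L.β (L.N - 1) ∨ a 0 = L.β (L.k - 1) ∧ b 0 = L.β L.k) →
  Pr (L.Hts ε) {h | Ret L z r R h} ≤ η

/-! ### From the continuum to the lattice -/

/-- Walks starting at the mark `p` that do not come back to it. -/
structure Mk (δ : ℕ → ℝ) (p : ℂ) (e₀ : ℝ) (a : ℕ → ℕ → V) (na : ℕ → ℕ) : Prop where
  adj : ∀ n, ∀ i < na n, Adj (a n i) (a n (i + 1))
  st : Tendsto (fun n => (δ n : ℂ) * emb (a n 0)) atTop (𝓝 p)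
  en : ∀ᶠ n in atTop, e₀ ≤ ‖δ n * emb (a n (na n)) - p‖
  ulc : ∀ e : ℝ, 0 < e → ∃ d : ℝ, 0 < d ∧ ∀ᶠ n in atTop, ∀ i j, i ≤ j → j ≤ na n →
    ‖δ n * emb (a n j) - p‖ ≤ d → ‖δ n * emb (a n i) - p‖ ≤ e

/-- The first arc seen from both marks. -/
def S_mkP : Prop := ∀ ψ L δ, IsJordanMap ψ → Approx ψ L δ →
  Mk δ (ψ (-1)) (‖ψ 1 - ψ (-1)‖ / 2) (fun n i => (L n).β i) (fun n => (L n).k - 1) ∧
  Mk δ (ψ 1) (‖ψ 1 - ψ (-1)‖ / 2) (fun n i => (L n).β ((L n).k - 1 - i)) (fun n => (L n).k - 1)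

/-- The second arc seen from both marks. -/
def S_mkM : Prop := ∀ ψ L δ, IsJordanMap ψ → Approx ψ L δ →
  Mk δ (ψ (-1)) (‖ψ 1 - ψ (-1)‖ / 2) (fun n i => (L n).β ((L n).N - 1 - i))
    (fun n => (L n).N - 1 - (L n).k) ∧
  Mk δ (ψ 1) (‖ψ 1 - ψ (-1)‖ / 2) (fun n i => (L n).β ((L n).k + i))
    (fun n => (L n).N - 1 - (L n).k)

/-- The choice of the radii. -/
def S_rad : Prop := ∀ (δ : ℕ → ℝ) (p : ℂ) (e₀ e : ℝ) (a b : ℕ → ℕ → V) (na nb : ℕ → ℕ) (M : ℕ),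
  (∀ n, 0 < δ n) → Tendsto δ atTop (𝓝 0) → Mk δ p e₀ a na → Mk δ p e₀ b nb → 0 < e → e ≤ e₀ →
  ∃ k : ℝ, 0 < k ∧ ∀ᶠ n in atTop, ∃ r r' R' R : ℕ, r < r' ∧ r' ≤ R' ∧ M * r' ≤ R' ∧ R' ≤ R ∧
    Win (a n) (na n) (a n 0) r r' R' R ∧ Win (b n) (nb n) (a n 0) r r' R' R ∧
    (∀ x, ‖δ n * emb x - p‖ ≤ k + δ n → x ∈ hex (a n 0) r) ∧
    ∀ x, e - δ n ≤ ‖δ n * emb x - p‖ → x ∉ hex (a n 0) (R + 1)

/-- No return to the marks. -/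
def BkD : Prop := ∀ ψ L δ (ε : ℤ), IsJordanMap ψ → Approx ψ L δ → (ε = 1 ∨ ε = -1) →
  ∀ e η : ℝ, 0 < e → 0 < η → ∃ k : ℝ, 0 < k ∧ ∀ᶠ n in atTop,
    Pr ((L n).Hts ε) {h | ∃ s v, s ≤ v ∧ ‖(L n).iface (δ n) h s - ψ 1‖ < k ∧
      e < ‖(L n).iface (δ n) h v - ψ 1‖} ≤ η ∧
    Pr ((L n).Hts ε) {h | ∃ s v, s ≤ v ∧ e < ‖(L n).iface (δ n) h s - ψ (-1)‖ ∧
      ‖(L n).iface (δ n) h v - ψ (-1)‖ < k} ≤ η

/-! ### The glue -/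

/-- The property of the variance constant given by `Wick.UniK`. -/
def KP (δ K : ℕ → ℝ) : Prop := (∃ a b : ℝ, 0 < a ∧ ∀ n, a ≤ K n ∧ K n ≤ b) ∧
  ∀ (m : ℕ → ℕ) D ψ' φ c F (S : ℕ → Set V), Tendsto m atTop atTop → Seq D F (δ ∘ m) →
    P071.Conf D ψ' φ → W_bv D φ c (fun n => dob (F n) (S n)) (YY (δ ∘ m)) → ∀ g, P071.Test D g →
    Tendsto (fun n => cov (dob (F n) (S n)) (YY (δ ∘ m) n g) (YY (δ ∘ m) n g) -
      K (m n) * Qv D φ g) atTop (𝓝 0)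

/-- The Loewner data of one direction. -/
def Dir (H : ℕ → Set Cfg) (c : ℕ → Cfg → ℝ → ℂ) (K : ℕ → ℝ) : Prop :=
  ∃ (ι : Type) (lab : ℕ → ℕ → Cfg → ι) (t : ℕ → ℕ → Cfg → ℝ) (W : ℕ → Cfg → Pth)
    (S : ℕ → Cfg → ℝ) (τ : ℕ → Cfg → ℝ → ℝ), Drive.Drv H lab t W K ∧
    ∀ᶠ n in atTop, ∀ h ∈ H n, SLE.DC (c n h) ∧ SLE.Drv (c n h) (S n h) (τ n h) (W n h) ∧
      (∀ u ≤ 0, W n h u = 0) ∧ ∀ m, t n m h ≤ τ n h (S n h)

/-- The output of the slit domain module. -/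
def A2out : Prop := ∀ ψ L δ (ε : ℤ) (K : ℕ → ℝ), IsJordanMap ψ → Approx ψ L δ →
  (ε = 1 ∨ ε = -1) → KP δ K →
  ∃ (Ψ : ℕ → ℂ → ℂ) (c : ℕ → Cfg → ℝ → ℂ), TendstoUniformlyOn Ψ ψ atTop (closedBall 0 1) ∧
    (∀ᶠ n in atTop, ∀ h ∈ (L n).Hts ε, Continuous ((L n).iface (δ n) h) ∧
      ∃ ρ : unitInterval ≃o unitInterval, ∀ t, (L n).iface (δ n) h (ρ t) = Ψ n (c n h t)) ∧
    Dir (fun n => (L n).Hts ε) c K ∧ Dir (fun n => (L n).Hts ε) (fun n h => SLE.rev (c n h)) K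

/-- From uniformly continuous to continuous functionals. -/
def S_law : Prop := ∀ (μ : Measure Pth) (H : ℕ → Set Cfg) (W : ℕ → Cfg → Pth), SLE.BM μ →
  (∀ n, Good (H n)) → (∀ᶠ n in atTop, ∀ h ∈ H n, ∀ u ≤ 0, W n h u = 0) → Drive.Conv H W →
  SLE.Law μ H W

/-- The capacity goes to infinity. -/
def S_cap : Prop := ∀ (μ : Measure Pth) (H : ℕ → Set Cfg) (W : ℕ → Cfg → Pth)
  (t : ℕ → ℕ → Cfg → ℝ) (x : ℕ → Cfg → ℝ), IsProbabilityMeasure μ → (∀ n, Good (H n)) →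
  SLE.Law μ H W →
  (∀ T R : ℝ, ∀ᶠ n in atTop, ∀ h ∈ H n, ∃ m, ¬ Drive.Run T R (t n m h) (W n h)) →
  (∀ᶠ n in atTop, ∀ h ∈ H n, ∀ m, t n m h ≤ x n h) →
  ∀ T : ℝ, Tendsto (fun n => Pr (H n) {h | x n h < T}) atTop (𝓝 0)

/-- No return, in the disc. -/
def S_back : Prop := ∀ ψ L δ (ε : ℤ) (Ψ : ℕ → ℂ → ℂ) (c : ℕ → Cfg → ℝ → ℂ), IsJordanMap ψ →
  Approx ψ L δ → (ε = 1 ∨ ε = -1) → TendstoUniformlyOn Ψ ψ atTop (closedBall 0 1) →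
  (∀ n, Good ((L n).Hts ε)) →
  (∀ᶠ n in atTop, ∀ h ∈ (L n).Hts ε, SLE.DC (c n h) ∧
    ∃ ρ : unitInterval ≃o unitInterval, ∀ t, (L n).iface (δ n) h (ρ t) = Ψ n (c n h t)) →
  ∀ e η : ℝ, 0 < e → 0 < η → ∃ k : ℝ, 0 < k ∧ ∀ᶠ n in atTop,
    Pr ((L n).Hts ε) {h | SLE.Bk (c n h) k e} ≤ η ∧
    Pr ((L n).Hts ε) {h | SLE.Bk (SLE.rev (c n h)) k e} ≤ η

end Vale.Agent.P153.Bk
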