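import Vale.Agent.P153.SLE.BkStm
import Vale.Agent.P153.FKG.Basic

/-! No return to the marks, transported to the disc. -/

open Set Filter Topology Metric MeasureTheory

noncomputable section
namespace Vale.Agent.P153.Bk

namespace BkBack

theorem mem {c : ℝ → ℂ} (h : SLE.DC c) (t : unitInterval) : c t ∈ closedBall (0 : ℂ) 1 := by
  rw [mem_closedBall_zero_iff]
  rcases t.2.1.eq_or_lt with h0 | h0
  · rw [← h0, h.c0]; simp
  rcases t.2.2.eq_or_lt with h1 | h1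
  · rw [h1, h.c1]; simp
  · exact (h.ins _ ⟨h0, h1⟩).le

theorem near {a b p : ℂ} {k : ℝ} (h1 : dist b a < k / 4) (h2 : dist b p ≤ k / 4) :
    ‖a - p‖ < k := by
  have := dist_triangle_left a p b
  have := dist_nonneg (x := b) (y := a)
  rw [← dist_eq_norm]
  linarith

theorem far {a b p : ℂ} {d : ℝ} (h1 : dist b a < d / 2) (h2 : d < dist b p) :
    d / 2 < ‖a - p‖ := by
  have := dist_triangle b a p
  rw [← dist_eq_norm]
  linarith

end BkBack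

open BkBack in
theorem s_back (hc : Wick.S_conf) (h : BkD) : S_back := by
  intro ψ L δ ε Ψ c hψ hL hε hΨ _ hev e η e0 η0
  have u := (hc ψ hψ).2.2.2.2.2.1
  obtain ⟨d, d0, hd⟩ := u e e0
  obtain ⟨k₁, k1, hk⟩ := h ψ L δ ε hψ hL hε (d / 2) η (by positivity) η0
  obtain ⟨k, k0, hk'⟩ := u (k₁ / 4) (by positivity)
  refine ⟨k, k0, ?_⟩
  filter_upwards [hev, hk, tendstoUniformlyOn_iff.1 hΨ (d / 2) (by positivity),
    tendstoUniformlyOn_iff.1 hΨ (k₁ / 4) (by positivity)] with n a b q1 q2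
  have N : ∀ x ∈ closedBall (0 : ℂ) 1, ∀ p ∈ closedBall (0 : ℂ) 1, ‖x - p‖ < k →
      ‖Ψ n x - ψ p‖ < k₁ := fun x hx p hp hh =>
    near (q2 x hx) ((hk' x hx p hp).1 (by rw [dist_eq_norm]; exact hh.le))
  have F : ∀ x ∈ closedBall (0 : ℂ) 1, ∀ p ∈ closedBall (0 : ℂ) 1, e < ‖x - p‖ →
      d / 2 < ‖Ψ n x - ψ p‖ := fun x hx p hp hh =>
    far (q1 x hx) (lt_of_not_ge fun g => hh.not_ge (dist_eq_norm x p ▸ (hd x hx p hp).2 g))
  refine ⟨(Pr_mono fun H hH => ?_).trans b.1, (Pr_mono fun H hH => ?_).trans b.2⟩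
  · rintro ⟨s, v, s0, sv, v1, h1, h2⟩
    obtain ⟨dc, ρ, hρ⟩ := a H hH
    refine ⟨ρ ⟨s, s0, sv.trans v1⟩, ρ ⟨v, s0.trans sv, v1⟩, ρ.monotone sv, ?_, ?_⟩ <;> rw [hρ]
    · exact N _ (mem dc _) _ (by simp) h1
    · exact F _ (mem dc _) _ (by simp) h2
  · rintro ⟨s, v, s0, sv, v1, h1, h2⟩
    obtain ⟨dc, ρ, hρ⟩ := a H hH
    have r : ∀ t, ‖SLE.rev (c n H) t - 1‖ = ‖c n H (1 - t) - -1‖ := fun t => by
      rw [← norm_neg, SLE.rev]
      exact congrArg _ (by ring)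
    rw [r] at h1 h2
    refine ⟨ρ ⟨1 - v, by linarith, by linarith⟩, ρ ⟨1 - s, by linarith, by linarith⟩,
      ρ.monotone (sub_le_sub_left sv 1), ?_, ?_⟩ <;> rw [hρ]
    · exact F _ (mem dc _) _ (by simp) h2
    · exact N _ (mem dc _) _ (by simp) h1

end Vale.Agent.P153.Bk
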