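import Vale.Agent.P153.SLE.BkStm
import Vale.Agent.P153.Planar.Basic

/-! The alternative for one side of the interface. -/

open Set Filter Topology Metric MeasureTheory

noncomputable section
namespace Vale.Agent.P153.Bk

namespace BkChain

variable {F P Q : Set V} {a b : ℕ → V} {na nb : ℕ} {z : V} {r r' R' R : ℕ}

theorem back (hb : Win b nb z r r' R' R) (hQ : ∀ i ≤ nb, b i ∈ hex z (R + 1) → b i ∈ Q) {u : V}
    (hu : u ∈ wnd b nb z R) : Conn (fun _ _ => True) Q u (b 0) := by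
  obtain ⟨i, hi, rfl, h⟩ := hu
  exact (conn_of_walk (m := i) (fun t ht => ⟨hb.adj t (ht.trans_le hi), trivial⟩)
    (fun t ht => hQ t (ht.trans hi) (h t ht)) (Nat.zero_le i) le_rfl).symm fun _ _ => id

theorem back' (hb : Win b nb z r r' R' R) (hQ : ∀ i ≤ nb, b i ∈ hex z (R + 1) → b i ∈ Q) {j : ℕ}
    (hj : j ≤ nb) (h : b j ∈ hex z R') : Conn (fun _ _ => True) Q (b j) (b 0) :=
  back hb hQ ⟨j, hj, rfl, fun i hi => hex_mono (Nat.le_succ R) (hb.u2 i j hi hj h)⟩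

theorem joined (hR : R' ≤ R) (hb : Win b nb z r r' R' R) (hB : Bd F a b na nb)
    (ha : ∀ i ≤ na, a i ∉ P) (hP : ∀ i ≤ nb, b i ∈ P) {u : V} (hu : u ∈ F ∪ b '' Iic nb)
    (hJ : u ∈ Jn F P z R') :
    Conn (fun _ _ => True) (P ∩ (F ∪ b '' Iic nb) ∩ hex z (R + 1)) u (b 0) := by
  have hQ : ∀ i ≤ nb, b i ∈ hex z (R + 1) → b i ∈ P ∩ (F ∪ b '' Iic nb) ∩ hex z (R + 1) :=
    fun i hi h => ⟨⟨hP i hi, Or.inr ⟨i, hi, rfl⟩⟩, h⟩
  have hm : hex z R' ⊆ hex z (R + 1) := hex_mono (hR.trans (Nat.le_succ R))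
  obtain ⟨y, hy, hF, hc⟩ := hJ
  rw [conn_both_iff] at hc
  by_cases h : u ∈ F
  · obtain ⟨u', v, c1, c2, -, c3, c4, c5, c6, -⟩ := hc.exit h hF
    rcases hB.sub ⟨c6, u', c4, c2.symm⟩ with ⟨i, hi, rfl⟩ | ⟨j, hj, rfl⟩
    · exact absurd c5.2 (ha i hi)
    · refine Conn.trans (Conn.tail (c1.monoA fun w hw => ?_) c2 trivial ?_ (hQ j hj (hm c5.1)))
        (back' hb hQ hj c5.1)
      · exact ⟨⟨hw.1.2, Or.inl hw.2⟩, hm hw.1.1⟩
      · exact ⟨⟨c3.2, Or.inl c4⟩, hm c3.1⟩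
  · obtain ⟨j, hj, rfl⟩ := hu.resolve_left h
    exact back' hb hQ hj (hc.eq_or_mem.elim (fun e => e ▸ hy) fun e => e.1.1)

end BkChain

theorem s_chain : S_chain := by
  intro F P a b na nb W O z x y r r' R' R hr hR hb hB hT ha hP hx hy hc
  refine or_iff_not_imp_left.2 fun hG => ?_
  have hm : hex z R ⊆ hex z (R + 1) := hex_mono (Nat.le_succ R)
  obtain ⟨u, v, c1, c2, -, c3, c4, c5, c6, -⟩ := hc.exit (hex_mono hr hx) fun h => hy (hm h)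
  have hn : nrm (v - z) = R + 1 :=
    le_antisymm ((c2.nrm_le z).trans (Nat.succ_le_succ c4)) (Nat.lt_of_not_le c6)
  have key : ∀ w, w ∈ P ∩ (F ∪ b '' Iic nb) →
      Conn (fun _ _ => True) (P ∩ (F ∪ b '' Iic nb) ∩ hex z (R + 1)) x w →
      w ∉ wnd a na z R ∪ wnd b nb z R ∧ w ∉ Jn F P z R' := fun w hw h => by
    refine ⟨?_, fun h1 => hG (h.trans (BkChain.joined hR hb hB ha hP hw.2 h1))⟩
    rintro (⟨i, hi, rfl, -⟩ | h1)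
    · exact ha i hi hw.1
    · refine hG (h.trans (BkChain.back hb (fun i hi h => ?_) h1))
      exact ⟨⟨hP i hi, Or.inr ⟨i, hi, rfl⟩⟩, h⟩
  have hs : P ∩ (F ∪ b '' Iic nb) ∩ hex z R ⊆ P ∩ (F ∪ b '' Iic nb) ∩ hex z (R + 1) :=
    inter_subset_inter_right _ hm
  have kv := key v c5 ((c1.monoA hs).tail c2 trivial ⟨c3, hm c4⟩ ⟨c5, hn.le⟩)
  obtain ⟨s, hO⟩ := (hT.out v hn).resolve_left kv.1
  have key2 : ∀ w, w ∈ P ∩ (F ∪ b '' Iic nb) ∩ hex z R →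
      Conn (fun _ _ => True) (P ∩ (F ∪ b '' Iic nb) ∩ hex z R) x w →
      w ∈ (W s)ᶜ ∩ (Jn F P z R')ᶜ := fun w hw h => by
    have k := key w hw.1 (h.monoA hs)
    exact ⟨fun h1 => (hT.sub s w h1 hw.2).elim k.1 fun h2 => k.2 ⟨w, h2.2, h2.1, .rfl⟩, k.2⟩
  refine ⟨s, x, hx, v, hO, (c1.cluster.mono' fun p q _ _ hp hq =>
    ⟨⟨hp.1.1.1, hq.1.1.1⟩, key2 p hp.1 hp.2, key2 q hq.1 hq.2⟩).tail c2 ⟨c3.1, c5.1⟩
    (key2 u ⟨c3, c4⟩ c1) ⟨disjoint_left.1 (hT.wal s).OW hO, kv.2⟩⟩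

end Vale.Agent.P153.Bk
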