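import Vale.Agent.P153.SLE.BkStm
import Vale.Agent.P153.Planar.Basic
import Vale.Agent.P153.FKG.Basic

/-! The interface does not return to the marks. -/

open Set Filter Topology Metric MeasureTheory

noncomputable section
namespace Vale.Agent.P153.Bk

open Vale.Agent.P164 (Pth)
open Vale.Agent.P153.Wick (Fr arcP arcM Qv cov YY Seq W_bv)

namespace BkD

theorem norm_adj (he : Wick.S_emb) {x y : V} (h : Adj x y) : ‖emb y - emb x‖ ≤ 1 := by
  rw [← he.2.1]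
  have := (he.2.2.1 (y - x)).1
  rwa [adj_iff_nrm.1 h, Nat.cast_one] at this

theorem half (a : ℂ) (h : ‖a‖ ≤ 1) : ‖a / 2‖ ≤ 1 / 2 := by
  rw [norm_div, Complex.norm_ofNat]
  linarith

theorem step_le (he : Wick.S_emb) (h : V → ℤ) (e : V × V) (ha : Adj e.1 e.2) :
    ‖(emb (step h e).1 + emb (step h e).2) / 2 - (emb e.1 + emb e.2) / 2‖ ≤ 1 / 2 := by
  obtain ⟨c, hc⟩ : ∃ c : V, c = e.2 + ((e.1 - e.2).1 + (e.1 - e.2).2, -(e.1 - e.2).1) := ⟨_, rfl⟩
  have c1 : c.1 = e.1.1 + (e.1.2 - e.2.2) := by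
    rw [hc]
    simp only [Prod.fst_add, Prod.fst_sub, Prod.snd_sub]
    ring
  have c2 : c.2 = e.2.2 - (e.1.1 - e.2.1) := by
    rw [hc]
    simp only [Prod.snd_add, Prod.fst_sub]
    ring
  rw [adj_iff_nrm, nrm_sub] at ha
  have h1 : Adj e.1 c := by
    rw [adj_iff_nrm, nrm_sub, c1, c2]
    omega
  have h2 : Adj e.2 c := by
    rw [adj_iff_nrm, nrm_sub, c1, c2]
    omega
  unfold step
  rw [← hc]
  split_ifs
  · refine le_of_eq_of_le (congrArg _ ?_) (half _ (norm_adj he h1))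
    ring
  · refine le_of_eq_of_le (congrArg _ ?_) (half _ (norm_adj he h2))
    ring

/-- The index of the last crossed edge. -/
def ix (L : LDom) (h : V → ℤ) (s : unitInterval) : ℕ := ⌊(L.len h : ℝ) * s⌋₊

theorem ix_le (L : LDom) (h : V → ℤ) (s : unitInterval) : ix L h s ≤ L.len h :=
  Nat.floor_le_of_le (mul_le_of_le_one_right (Nat.cast_nonneg _) s.2.2)

theorem ix_mono (L : LDom) (h : V → ℤ) {s v : unitInterval} (hsv : s ≤ v) :
    ix L h s ≤ ix L h v :=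
  Nat.floor_le_floor (mul_le_mul_of_nonneg_left hsv (Nat.cast_nonneg _))

theorem near (he : Wick.S_emb) {L : LDom} {ε : ℤ} {h : V → ℤ} (hW : Walk L ε h) {δ : ℝ}
    (hδ : 0 < δ) (s : unitInterval) {x : V}
    (hx : x = (L.edge h (ix L h s)).1 ∨ x = (L.edge h (ix L h s)).2) :
    ‖L.iface δ h s - δ * emb x‖ ≤ δ := by
  have ha := hW.adj _ (ix_le L h s)
  have h1 : ‖(emb (L.edge h (ix L h s)).1 + emb (L.edge h (ix L h s)).2) / 2 - emb x‖ ≤ 1 / 2 := by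
    rcases hx with rfl | rfl
    · refine le_of_eq_of_le (congrArg _ ?_) (half _ (norm_adj he ha))
      ring
    · refine le_of_eq_of_le (congrArg _ ?_) (half _ (norm_adj he ha.symm))
      ring
  have h2 := step_le he h _ ha
  have e1 : step h (L.edge h (ix L h s)) = L.edge h (ix L h s + 1) := by
    unfold LDom.edge
    rw [Function.iterate_succ_apply']
  rw [e1] at h2
  have h3 : ‖((Int.fract ((L.len h : ℝ) * s) : ℝ) : ℂ)‖ ≤ 1 := by
    rw [Complex.norm_real, Real.norm_eq_abs, abs_of_nonneg (Int.fract_nonneg _)]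
    exact (Int.fract_lt_one _).le
  have e2 : L.iface δ h s - δ * emb x = δ * (((emb (L.edge h (ix L h s)).1 +
      emb (L.edge h (ix L h s)).2) / 2 - emb x) + ((Int.fract ((L.len h : ℝ) * s) : ℝ) : ℂ) *
      ((emb (L.edge h (ix L h s + 1)).1 + emb (L.edge h (ix L h s + 1)).2) / 2 -
        (emb (L.edge h (ix L h s)).1 + emb (L.edge h (ix L h s)).2) / 2)) := by
    unfold LDom.iface poly ix
    ring
  rw [e2, norm_mul, Complex.norm_real, Real.norm_eq_abs, abs_of_pos hδ]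
  refine mul_le_of_le_one_right hδ.le ((norm_add_le _ _).trans ?_)
  rw [norm_mul]
  have h4 := mul_le_mul h3 h2 (norm_nonneg _) zero_le_one
  linarith

theorem ret_of {L : LDom} {z : V} {r R : ℕ} {h : V → ℤ} {j₁ m j₂ : ℕ} (hr : r ≤ R)
    (h1 : j₁ ≤ m) (h2 : m ≤ j₂) (h3 : j₂ ≤ L.len h) (a1 : (L.edge h j₁).1 ∉ hex z (R + 1))
    (a2 : (L.edge h j₁).2 ∉ hex z (R + 1)) (a3 : (L.edge h j₂).1 ∉ hex z (R + 1))
    (b1 : (L.edge h m).1 ∈ hex z r) (b2 : (L.edge h m).2 ∈ hex z r) : Ret L z r R h := by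
  have b3 : (L.edge h m).1 ∈ hex z (R + 1) := hex_mono (by omega) b1
  refine ⟨j₁, m, j₂, lt_of_le_of_ne h1 ?_, lt_of_le_of_ne h2 ?_, h3, ⟨a1, a2⟩, a3, b1, b2⟩
  · rintro rfl
    exact a1 b3
  · rintro rfl
    exact a3 b3

theorem im1 (L : LDom) : (fun i => L.β i) '' Iic (L.k - 1) = arcP L := by
  have := L.k_pos
  unfold arcP
  congr 1
  ext i
  simp only [mem_Iic, mem_Iio]
  omega

theorem im2 (L : LDom) : (fun i => L.β (L.k - 1 - i)) '' Iic (L.k - 1) = arcP L := by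
  have := L.k_pos
  ext x
  constructor
  · rintro ⟨i, hi, rfl⟩
    exact ⟨_, by simp only [mem_Iio]; omega, rfl⟩
  · rintro ⟨i, hi, rfl⟩
    rw [mem_Iio] at hi
    exact ⟨L.k - 1 - i, by simp only [mem_Iic]; omega, congrArg L.β (by omega)⟩

theorem im3 (L : LDom) : (fun i => L.β (L.N - 1 - i)) '' Iic (L.N - 1 - L.k) = arcM L := by
  have := L.k_lt
  ext x
  constructor
  · rintro ⟨i, hi, rfl⟩
    rw [mem_Iic] at hi
    exact ⟨_, by simp only [mem_Ico]; omega, rfl⟩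
  · rintro ⟨i, hi, rfl⟩
    rw [mem_Ico] at hi
    exact ⟨L.N - 1 - i, by simp only [mem_Iic]; omega, congrArg L.β (by omega)⟩

theorem im4 (L : LDom) : (fun i => L.β (L.k + i)) '' Iic (L.N - 1 - L.k) = arcM L := by
  have := L.k_lt
  ext x
  constructor
  · rintro ⟨i, hi, rfl⟩
    rw [mem_Iic] at hi
    exact ⟨_, by simp only [mem_Ico]; omega, rfl⟩
  · rintro ⟨i, hi, rfl⟩
    rw [mem_Ico] at hi
    exact ⟨i - L.k, by simp only [mem_Iic]; omega, congrArg L.β (by omega)⟩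

theorem close {a b p : ℂ} {δ k k' : ℝ} (h1 : ‖a - b‖ ≤ δ) (h2 : ‖a - p‖ < k) (hk : k ≤ k') :
    ‖b - p‖ ≤ k' + δ := by
  have := norm_sub_le (a - p) (a - b)
  rw [show a - p - (a - b) = b - p by ring] at this
  linarith

theorem apart {a b p : ℂ} {δ e e' : ℝ} (h1 : ‖a - b‖ ≤ δ) (h2 : e < ‖a - p‖) (he : e' ≤ e) :
    e' - δ ≤ ‖b - p‖ := by
  have := norm_add_le (a - b) (b - p)
  rw [show a - b + (b - p) = a - p by ring] at this
  linarith

end BkD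

theorem bkD (he : Wick.S_emb) (hl : Lat) (h1 : S_lat) (h2 : S_mkP) (h3 : S_mkM) (h4 : S_rad) :
    BkD := by
  intro ψ L δ ε hψ hA hε e η he0 hη
  have h0 : 0 < ‖ψ 1 - ψ (-1)‖ / 2 := by
    refine half_pos (norm_pos_iff.2 (sub_ne_zero.2 fun hh => ?_))
    have := hψ.2.1 (by simp) (by simp) hh
    norm_num at this
  obtain ⟨M, hM⟩ := h1 η hη
  obtain ⟨k1, hk1, H1⟩ := h4 δ (ψ 1) _ (min e (‖ψ 1 - ψ (-1)‖ / 2)) _ _ _ _ M hA.1 hA.2.1
    (h2 ψ L δ hψ hA).2 (h3 ψ L δ hψ hA).2 (lt_min he0 h0) (min_le_right _ _)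
  obtain ⟨k2, hk2, H2⟩ := h4 δ (ψ (-1)) _ (min e (‖ψ 1 - ψ (-1)‖ / 2)) _ _ _ _ M hA.1 hA.2.1
    (h2 ψ L δ hψ hA).1 (h3 ψ L δ hψ hA).1 (lt_min he0 h0) (min_le_right _ _)
  refine ⟨min k1 k2, lt_min hk1 hk2, ?_⟩
  filter_upwards [H1, H2, hl ψ L δ ε hψ hA hε] with n G1 G2 hW
  have hkl := (L n).k_lt
  constructor
  · obtain ⟨r, r', R', R, a1, a2, a3, a4, wa, wb, hin, hout⟩ := G1
    refine le_trans (Pr_mono fun h hh hE => ?_) (hM (L n) ε _ _ _ _ _ r r' R' R hε hW a1 a2 a3 a4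
      wa wb (BkD.im2 _) (BkD.im4 _) (Or.inr ⟨rfl, rfl⟩))
    obtain ⟨s, v, hsv, c1, c2⟩ := hE
    have e1 := wa.en
    have e2 := wb.en
    simp only [Nat.sub_self] at e1
    rw [show (L n).k + ((L n).N - 1 - (L n).k) = (L n).N - 1 by omega] at e2
    exact BkD.ret_of (j₁ := 0) (by omega) (Nat.zero_le _) (BkD.ix_mono _ h hsv) (BkD.ix_le _ h v)
      e1 e2
      (hout _ (BkD.apart (BkD.near he (hW h hh) (hA.1 n) v (Or.inl rfl)) c2 (min_le_left _ _)))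
      (hin _ (BkD.close (BkD.near he (hW h hh) (hA.1 n) s (Or.inl rfl)) c1 (min_le_left _ _)))
      (hin _ (BkD.close (BkD.near he (hW h hh) (hA.1 n) s (Or.inr rfl)) c1 (min_le_left _ _)))
  · obtain ⟨r, r', R', R, a1, a2, a3, a4, wa, wb, hin, hout⟩ := G2
    refine le_trans (Pr_mono fun h hh hE => ?_) (hM (L n) ε _ _ _ _ _ r r' R' R hε hW a1 a2 a3 a4
      wa wb (BkD.im1 _) (BkD.im3 _) (Or.inl ⟨rfl, rfl⟩))
    obtain ⟨s, v, hsv, c1, c2⟩ := hE
    have e1 : ((L n).edge h ((L n).len h)).1 ∉ hex ((L n).β 0) (R + 1) := by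
      rw [(hW h hh).fin]
      exact wa.en
    exact BkD.ret_of (by omega) (BkD.ix_mono _ h hsv) (BkD.ix_le _ h v) le_rfl
      (hout _ (BkD.apart (BkD.near he (hW h hh) (hA.1 n) s (Or.inl rfl)) c1 (min_le_left _ _)))
      (hout _ (BkD.apart (BkD.near he (hW h hh) (hA.1 n) s (Or.inr rfl)) c1 (min_le_left _ _)))
      e1
      (hin _ (BkD.close (BkD.near he (hW h hh) (hA.1 n) v (Or.inl rfl)) c2 (min_le_right _ _)))
      (hin _ (BkD.close (BkD.near he (hW h hh) (hA.1 n) v (Or.inr rfl)) c2 (min_le_right _ _)))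

end Vale.Agent.P153.Bk
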