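import Vale.Agent.P153.SLE.BkStm
import Vale.Agent.P153.K2.RAll
import Vale.Agent.P153.App2.All

/-! The lattice inputs of the no-return estimate. -/

open Set

namespace Vale.Agent.P153.Bk

theorem k4le_all : K4le := fun η hη =>
  (K2.k4le_all App2.l_mb_all η hη).imp fun _ h F S W T O z r R h1 h2 h3 h4 w =>
    h F S W T O z r R ⟨h1, h2, h3, w.cW, w.cT, w.cO, w.Tr, w.TW, w.OW, w.OR, w.near, w.far, w.ann⟩ h4

theorem k4ge_all : K4ge := fun η hη =>
  (K2.k4ge_all App2.l_mb_all η hη).imp fun _ h F S W T O z r R h1 h2 h3 h4 w =>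
    h F S W T O z r R ⟨h1, h2, h3, w.cW, w.cT, w.cO, w.Tr, w.TW, w.OW, w.OR, w.near, w.far, w.ann⟩ h4

theorem bkk4_nxt (l r : V) : r + ((l - r).1 + (l - r).2, -(l - r).1) = nxt l r := by
  simp only [nxt, Prod.ext_iff, Prod.fst_add, Prod.snd_add, Prod.fst_sub, Prod.snd_sub]
  omega

theorem par_all : S_par := by
  intro L ε h O j₀ j₁ m j₂ hε w cO h0 h1 h2 h3 o1 o2 o3 o4 c1 c2
  refine K2.s_par {x | 0 < ε * h x} {x | ε * h x < 0} O (fun i => (L.edge h i).1)
    (fun i => (L.edge h i).2) (L.len h) j₀ j₁ m j₂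
    (disjoint_left.2 fun x (a : 0 < ε * h x) (b : ε * h x < 0) => by omega)
    (fun i hi => ⟨?_, ?_, w.adj i hi⟩) (fun i _ => ?_)
    (fun i hi i' hi' a b => w.inj hi hi' (Prod.ext a b)) h0 h1 h2 h3 cO (Or.inl o1) (Or.inl o2)
    o3 o4 c1 c2
  · show 0 < ε * h _
    rw [(w.lft i hi).1]
    rcases hε with rfl | rfl <;> norm_num
  · show ε * h _ < 0
    rw [(w.rgt i hi).1]
    rcases hε with rfl | rfl <;> norm_num
  · have e : L.edge h (i + 1) = step h (L.edge h i) := Function.iterate_succ_apply' _ _ _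
    simp only [e, step, bkk4_nxt]
    split_ifs
    · exact Or.inl ⟨rfl, rfl⟩
    · exact Or.inr ⟨rfl, rfl⟩

end Vale.Agent.P153.Bk
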