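import Vale.Agent.P153.SLE.BkStm
import Vale.Agent.P153.Planar.Timar

/-! The interface does not return to the marks: the estimate on the lattice. -/

open Set Filter Topology Metric MeasureTheory

namespace Vale.Agent.P153.Bk

open Vale.Agent.P153.Wick (Fr arcP arcM Sp)

namespace BkLat

theorem step_adj (h : V → ℤ) {e : V × V} (he : Adj e.1 e.2) :
    (e.1 = (step h e).1 ∨ Adj e.1 (step h e).1) ∧ (e.2 = (step h e).2 ∨ Adj e.2 (step h e).2) := by
  unfold step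
  split_ifs
  · refine ⟨Or.inr ?_, Or.inl rfl⟩
    simp only [adj_iff, Prod.fst_add, Prod.snd_add, Prod.fst_sub, Prod.snd_sub] at he ⊢
    omega
  · refine ⟨Or.inl rfl, Or.inr ?_⟩
    simp only [adj_iff, Prod.fst_add, Prod.snd_add, Prod.fst_sub, Prod.snd_sub] at he ⊢
    omega

theorem conn {A : Set V} {l : ℕ → V} {n j m : ℕ} (h1 : ∀ i ≤ n, l i ∈ A)
    (h2 : ∀ i < n, l i = l (i + 1) ∨ Adj (l i) (l (i + 1))) (hj : j ≤ m) (hm : m ≤ n) :
    Conn (fun _ _ => True) A (l m) (l j) := by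
  induction m, hj using Nat.le_induction with
  | base => exact Conn.rfl
  | succ m _ ih =>
    rcases h2 m hm with e | e
    · exact e ▸ ih (by omega)
    · exact (ih (by omega)).head e.symm trivial (h1 _ hm) (h1 _ (by omega))

theorem det (hp : S_par) (hc : S_chain) {L : LDom} {ε : ℤ} {a b : ℕ → V} {na nb : ℕ} {z : V}
    {r r' R' R : ℕ} {h : V → ℤ} {W O : Bool → Set V} {PL PR : Set V} (hε : ε = 1 ∨ ε = -1)
    (hw : Walk L ε h) (hr : r ≤ R) (hR : R' ≤ R) (wa : Win a na z r r' R' R)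
    (wb : Win b nb z r r' R' R) (ea : a '' Iic na = arcP L) (eb : b '' Iic nb = arcM L)
    (e0 : a 0 = L.β 0 ∧ b 0 = L.β (L.N - 1) ∨ a 0 = L.β (L.k - 1) ∧ b 0 = L.β L.k)
    (bd : Bd (Fr L) a b na nb) (tw : Two (Fr L) (wnd a na z R ∪ wnd b nb z R) W O z r r' R' R)
    (hP : ∀ x ∈ arcP L, h x = ε) (hM : ∀ x ∈ arcM L, h x = -ε)
    (hZ : ∀ x, x ∈ Fr L ∨ x ∈ arcP L ∨ x ∈ arcM L →
      (x ∈ PL ↔ 0 < ε * h x) ∧ (x ∈ PR ↔ ε * h x < 0)) (ret : Ret L z r R h) :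
    ∃ s, Ev (Fr L) (W s) (hex z r) (O s) PL z R' ∨ Ev (Fr L) (W s) (hex z r) (O s) PR z R' := by
  obtain ⟨j₁, m, j₂, h1, h2, h3, ⟨f1, f2⟩, f3, n1, n2⟩ := ret
  have sq : ε * ε = 1 := by rcases hε with rfl | rfl <;> rfl
  have sq' : ε * -ε = -1 := by rw [mul_neg, sq]
  have ma : ∀ i ≤ na, a i ∈ arcP L := fun i hi => ea ▸ mem_image_of_mem a hi
  have mb : ∀ i ≤ nb, b i ∈ arcM L := fun i hi => eb ▸ mem_image_of_mem b hi
  have st : ∀ i < L.len h, _ := fun i hi => step_adj h (hw.adj i hi.le)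
  have su : ∀ i, step h (L.edge h i) = L.edge h (i + 1) := fun i =>
    (Function.iterate_succ_apply' _ _ _).symm
  simp only [su] at st
  have cl := conn (A := PL ∩ (Fr L ∪ a '' Iic na)) (l := fun i => (L.edge h i).1) (fun i hi => by
    have := hw.lft i hi
    refine ⟨(hZ _ (this.2.imp_right Or.inl)).1.2 ?_, ea ▸ this.2⟩
    rw [this.1, sq]
    exact one_pos) (fun i hi => (st i hi).1) h1.le (by omega)
  have cr := conn (A := PR ∩ (Fr L ∪ b '' Iic nb)) (l := fun i => (L.edge h i).2) (fun i hi => by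
    have := hw.rgt i hi
    refine ⟨(hZ _ (this.2.imp_right Or.inr)).2.2 ?_, eb ▸ this.2⟩
    rw [this.1, sq']
    exact neg_one_lt_zero) (fun i hi => (st i hi).2) h1.le (by omega)
  have za := fun i hi => hZ _ (Or.inr (Or.inl (ma i hi)))
  have zb := fun i hi => hZ _ (Or.inr (Or.inr (mb i hi)))
  rcases hc (Fr L) PL b a nb na W O z _ _ r r' R' R hr hR wa
    ⟨union_comm _ _ ▸ bd.sub, bd.bF, bd.aF, fun i hi j hj => (bd.ne j hj i hi).symm⟩
    (union_comm _ _ ▸ tw) (fun i hi => by rw [(zb i hi).1, hM _ (mb i hi), sq']; norm_num)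
    (fun i hi => by rw [(za i hi).1, hP _ (ma i hi), sq]; norm_num) n1 f1 cl with c1 | ⟨s, c1⟩
  swap
  · exact ⟨s, Or.inl c1⟩
  rcases hc (Fr L) PR a b na nb W O z _ _ r r' R' R hr hR wb bd tw
    (fun i hi => by rw [(za i hi).2, hP _ (ma i hi), sq]; norm_num)
    (fun i hi => by rw [(zb i hi).2, hM _ (mb i hi), sq']; norm_num) n2 f2 cr with c2 | ⟨s, c2⟩
  swap
  · exact ⟨s, Or.inr c2⟩
  obtain ⟨j, hj, e⟩ : ∃ j, (j = 0 ∨ j = L.len h) ∧ L.edge h j = (a 0, b 0) := by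
    rcases e0 with ⟨e1, e2⟩ | ⟨e1, e2⟩
    · exact ⟨0, Or.inl rfl, by rw [e1, e2]; rfl⟩
    · exact ⟨_, Or.inr rfl, by rw [e1, e2, hw.fin]⟩
  have hx : hex z r ⊆ hex z (R + 1) := hex_mono (by omega)
  refine (hp L ε h (hex z (R + 1))ᶜ j j₁ m j₂ hε hw (cn_compl_hex z _) hj h1 h2 h3 f1 f3
    (not_not.2 (hx n1)) (not_not.2 (hx n2)) ?_ ?_).elim <;> rw [e]
  · exact c1.monoA fun x hx => ⟨(hZ x (hx.1.2.imp_right fun k => Or.inl (ea ▸ k))).1.1 hx.1.1,
      not_not.2 hx.2⟩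
  · exact c2.monoA fun x hx => ⟨(hZ x (hx.1.2.imp_right fun k => Or.inr (eb ▸ k))).2.1 hx.1.1,
      not_not.2 hx.2⟩

end BkLat

open BkLat

theorem s_lat (hb : Wick.S_bij) (h2 : Wick.S_ld2) (k1 : K4le) (k2 : K4ge) (hp : S_par)
    (hw : S_wall) (hc : S_chain) : S_lat := by
  intro η hη
  obtain ⟨M1, m1⟩ := k1 (η / 4) (by positivity)
  obtain ⟨M2, m2⟩ := k2 (η / 4) (by positivity)
  refine ⟨max M1 M2, fun L ε a b na nb z r r' R' R hε wk r1 r2 hM r3 wa wb ea eb e0 => ?_⟩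
  obtain ⟨dm, ob, aP, aM, -, -, dj⟩ := h2 L
  have ma : ∀ i ≤ na, a i ∈ arcP L := fun i hi => ea ▸ mem_image_of_mem a hi
  have mb : ∀ i ≤ nb, b i ∈ arcM L := fun i hi => eb ▸ mem_image_of_mem b hi
  have bd : Bd (Fr L) a b na nb := ⟨by rwa [ea, eb], fun i hi => aP (ma i hi),
    fun i hi => aM (mb i hi), fun i hi j hj e => disjoint_left.1 dj (ma i hi) (e ▸ mb j hj)⟩
  obtain ⟨W, O, tw⟩ := hw (Fr L) a b na nb z r r' R' R r1 r2 r3 wa wb bd
  obtain ⟨e, be, he⟩ := hb L ε hε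
  have p1 := fun s => m1 (Fr L) (Sp L ε) _ _ _ z r' R' dm.1 dm.2 (by omega)
    ((Nat.mul_le_mul_right _ (le_max_left _ _)).trans hM) (tw.wal s)
  have p2 := fun s => m2 (Fr L) (Sp L ε) _ _ _ z r' R' dm.1 dm.2 (by omega)
    ((Nat.mul_le_mul_right _ (le_max_right _ _)).trans hM) (tw.wal s)
  rw [← Pr_bij be]
  refine le_trans (Pr_mono fun H hH ret => ?_) (((Pr_union_le _ _ _).trans (add_le_add
    ((Pr_union_le _ _ _).trans (add_le_add (p1 true) (p1 false)))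
    ((Pr_union_le _ _ _).trans (add_le_add (p2 true) (p2 false))))).trans_eq (by ring))
  have hh := be.mapsTo hH
  have hP : ∀ x ∈ arcP L, e H x = ε := by
    rintro _ ⟨i, hi, rfl⟩
    exact hh.2.2.1 i hi
  have hM : ∀ x ∈ arcM L, e H x = -ε := by
    rintro _ ⟨i, hi, rfl⟩
    exact hh.2.2.2.1 i hi.1 hi.2
  have hZ : ∀ x, x ∈ Fr L ∨ x ∈ arcP L ∨ x ∈ arcM L → e H x = 2 * H x - 1 := by
    rintro x (hx | hx | hx)
    · exact he H x hx
    · rcases hε with rfl | rfl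
      · rw [hP x hx, (hH.2 x (aP hx)).1 (by simpa [Sp] using hx)]; rfl
      · rw [hP x hx, (hH.2 x (aP hx)).2 (by simpa [Sp] using disjoint_left.1 dj hx)]; rfl
    · rcases hε with rfl | rfl
      · rw [hM x hx, (hH.2 x (aM hx)).2 (by simpa [Sp] using disjoint_right.1 dj hx)]; rfl
      · rw [hM x hx, (hH.2 x (aM hx)).1 (by simpa [Sp] using hx)]; rfl
  have d := fun PL PR => det (PL := PL) (PR := PR) hp hc hε (wk _ hh) (by omega) r3 wa wb ea eb e0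
    bd tw hP hM
  rcases hε with rfl | rfl
  · obtain ⟨s, h⟩ := d (ge 1 H) (le 0 H) (fun x hx => by
      simp only [hZ x hx, ge, le, mem_ofPred_eq]; omega) ret
    cases s <;> rcases h with h | h
    exacts [Or.inr (Or.inr h), Or.inl (Or.inr h), Or.inr (Or.inl h), Or.inl (Or.inl h)]
  · obtain ⟨s, h⟩ := d (le 0 H) (ge 1 H) (fun x hx => by
      simp only [hZ x hx, ge, le, mem_ofPred_eq]; omega) ret
    cases s <;> rcases h with h | h
    exacts [Or.inl (Or.inr h), Or.inr (Or.inr h), Or.inl (Or.inl h), Or.inr (Or.inl h)]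

end Vale.Agent.P153.Bk
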