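import Vale.Agent.P153.SLE.BkMk0

/-! The second arc seen from both marks. -/

open Set Filter Topology Metric MeasureTheory

namespace Vale.Agent.P153.Bk

open BkMk0

theorem s_mkM (h1 : Wick.S_ld1) (hc : Wick.S_conf) (ha : Wick.S_arc) (he : Wick.S_emb) :
    S_mkM := by
  intro ψ L δ hψ hA
  have k1 := fun n => (L n).k_lt
  have t0 := adj_lim he hA (a := fun n => (L n).β ((L n).N - 1)) (fun n => by
    have := (L n).adj ((L n).N - 1) (by have := k1 n; omega)
    rwa [Nat.sub_add_cancel (by have := k1 n; omega), (L n).closed] at this) (ha ψ L δ hψ hA).1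
  have t1 := hA.2.2.1
  have e1 : ∀ n, (L n).N - 1 - ((L n).N - 1 - (L n).k) = (L n).k := fun n => by
    have := k1 n
    omega
  have e2 : ∀ n, (L n).k + ((L n).N - 1 - (L n).k) = (L n).N - 1 := fun n => by
    have := k1 n
    omega
  refine ⟨⟨fun n i hi => ?_, t0, (far hψ).1 (by simpa only [e1] using t1), fun e e0 => ?_⟩,
    fun n i hi => (L n).adj _ (by omega), t1, (far hψ).2 (by simpa only [e2] using t0),
    fun e e0 => ?_⟩
  · have := (L n).adj ((L n).N - 1 - (i + 1)) (by omega)
    rw [show (L n).N - 1 - (i + 1) + 1 = (L n).N - 1 - i by omega] at this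
    exact this.symm
  · obtain ⟨d, η, d0, η1, h⟩ := core h1 hc hψ hA e e0
    refine ⟨d, d0, h.mono fun n ⟨x, u, hk, c⟩ i j hij hj hd => ?_⟩
    have := k1 n
    have a := (c _ (by omega) _ (Or.inr rfl)).1 hd
    refine (c _ (by omega) _ (Or.inr rfl)).2 ?_
    simp only [Complex.neg_re, Complex.one_re] at a ⊢
    rcases u (L n).k ((L n).N - 1 - j) ((L n).N - 1 - i) (by omega) (by omega) (by omega) with
      b | b <;> linarith
  · obtain ⟨d, η, d0, η1, h⟩ := core h1 hc hψ hA e e0
    refine ⟨d, d0, h.mono fun n ⟨x, u, hk, c⟩ i j hij hj hd => ?_⟩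
    have := k1 n
    have a := (c _ (by omega) _ (Or.inl rfl)).1 hd
    refine (c _ (by omega) _ (Or.inl rfl)).2 ?_
    simp only [Complex.one_re] at a ⊢
    rcases u (L n).k ((L n).k + i) ((L n).k + j) (by omega) (by omega) (by omega) with
      b | b <;> linarith

end Vale.Agent.P153.Bk
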