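import Vale.Agent.P153.SLE.BkStm

/-! The choice of the radii near a mark. -/

open Set Filter Topology Metric MeasureTheory

noncomputable section
namespace Vale.Agent.P153.Bk

namespace BkRad

variable {δ o : ℝ} {p : ℂ} {z x : V} {m : ℕ}

theorem nsub (he : Wick.S_emb) (hδ : 0 < δ) (x z : V) :
    ‖δ * emb x - δ * emb z‖ = δ * ‖emb (x - z)‖ := by
  rw [← mul_sub, ← he.2.1, norm_mul, Complex.norm_real, Real.norm_of_nonneg hδ.le]

theorem hex_le (he : Wick.S_emb) (hδ : 0 < δ) (hz : ‖δ * emb z - p‖ ≤ o) (hx : x ∈ hex z m) :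
    ‖δ * emb x - p‖ ≤ δ * m + o := by
  have h2 : ‖emb (x - z)‖ ≤ m := (he.2.2.1 _).1.trans (by exact_mod_cast hx)
  linarith [norm_sub_le_norm_sub_add_norm_sub (δ * emb x) (δ * emb z) p, nsub he hδ x z,
    mul_le_mul_of_nonneg_left h2 hδ.le]

theorem le_hex (he : Wick.S_emb) (hδ : 0 < δ) (hz : ‖δ * emb z - p‖ ≤ o)
    (hx : 6 / 5 * (‖δ * emb x - p‖ + o) ≤ δ * m) : x ∈ hex z m := by
  have h3 := norm_sub_le_norm_sub_add_norm_sub (δ * emb x) p (δ * emb z)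
  rw [norm_sub_rev p, nsub he hδ] at h3
  have h5 : δ * (nrm (x - z) : ℝ) ≤ δ * m := by
    linarith [mul_le_mul_of_nonneg_left (he.2.2.1 (x - z)).2 hδ.le]
  exact_mod_cast le_of_mul_le_mul_left h5 hδ

theorem flo (hδ : 0 < δ) {t : ℝ} (ht : 0 ≤ t) : ∃ m : ℕ, δ * m ≤ t ∧ t - δ ≤ δ * m :=
  ⟨⌊t / δ⌋₊, (le_div_iff₀' hδ).1 (Nat.floor_le (div_nonneg ht hδ.le)), by
    linarith [(div_lt_iff₀' hδ).1 (Nat.lt_floor_add_one (t / δ))]⟩

theorem ulc2 {δ : ℕ → ℝ} {e₀ e : ℝ} {a b : ℕ → ℕ → V} {na nb : ℕ → ℕ} (ha : Mk δ p e₀ a na)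
    (hb : Mk δ p e₀ b nb) (he : 0 < e) : ∃ d : ℝ, 0 < d ∧ d ≤ e ∧ ∀ᶠ n in atTop,
      (∀ i j, i ≤ j → j ≤ na n → ‖δ n * emb (a n j) - p‖ ≤ d → ‖δ n * emb (a n i) - p‖ ≤ e) ∧
      ∀ i j, i ≤ j → j ≤ nb n → ‖δ n * emb (b n j) - p‖ ≤ d → ‖δ n * emb (b n i) - p‖ ≤ e := by
  obtain ⟨c, h1, h2⟩ := ha.ulc e he
  obtain ⟨c', h3, h4⟩ := hb.ulc e he
  exact ⟨min (min c c') e, lt_min (lt_min h1 h3) he, min_le_right _ _, (h2.and h4).mono fun n h =>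
    ⟨fun i j k1 k2 k3 => h.1 i j k1 k2 (k3.trans ((min_le_left _ _).trans (min_le_left _ _))),
      fun i j k1 k2 k3 => h.2 i j k1 k2 (k3.trans ((min_le_left _ _).trans (min_le_right _ _)))⟩⟩

end BkRad

open BkRad in
theorem s_rad (he : Wick.S_emb) : S_rad := by
  intro δ p e₀ e a b na nb M hδ h0 ha hb e0 e1
  obtain ⟨d₁, p1, q1, u1⟩ := ulc2 ha hb (show 0 < e / 8 by positivity)
  obtain ⟨d, pd, qd⟩ : ∃ d : ℝ, 0 < d ∧ (M + 1) * d = d₁ / 4 :=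
    ⟨d₁ / 4 / (M + 1), by positivity, mul_div_cancel₀ _ (by positivity)⟩
  have qd' : d ≤ d₁ / 4 := by nlinarith [M.cast_nonneg (α := ℝ)]
  obtain ⟨d₂, p2, q2, u2⟩ := ulc2 ha hb (show 0 < d / 4 by positivity)
  have po : 0 < d₂ / 100 := by positivity
  refine ⟨d₂ / 8, by positivity, ?_⟩
  filter_upwards [u1, u2, ha.en, hb.en, h0.eventually_le_const po,
    (tendsto_iff_norm_sub_tendsto_zero.1 ha.st).eventually_le_const po,
    (tendsto_iff_norm_sub_tendsto_zero.1 hb.st).eventually_le_const po] with n u1 u2 n1 n2 s0 s1 s2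
  have hd := hδ n
  obtain ⟨r, a1, a2⟩ := flo hd (half_pos p2).le
  obtain ⟨r', b1, b2⟩ := flo hd pd.le
  obtain ⟨R', c1, c2⟩ := flo hd (half_pos p1).le
  obtain ⟨R, f1, f2⟩ := flo hd (half_pos e0).le
  have k1 : (M + 1) * r' ≤ R' := by
    have : δ n * ((M + 1) * r') ≤ δ n * R' := by
      linarith [mul_le_mul_of_nonneg_left b1 (show (0 : ℝ) ≤ M + 1 by positivity)]
    exact_mod_cast le_of_mul_le_mul_left this hd
  have k2 : ∀ x, e - δ n ≤ ‖δ n * emb x - p‖ → x ∉ hex (a n 0) (R + 1) := fun x h1 h2 => by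
    have := hex_le he hd s1 h2
    push_cast at this
    linarith
  have k3 : ∀ (c : ℕ → V) (m : ℕ), (∀ i < m, Adj (c i) (c (i + 1))) →
      ‖δ n * emb (c 0) - p‖ ≤ d₂ / 100 → e₀ ≤ ‖δ n * emb (c m) - p‖ →
      (∀ i j, i ≤ j → j ≤ m → ‖δ n * emb (c j) - p‖ ≤ d₁ → ‖δ n * emb (c i) - p‖ ≤ e / 8) →
      (∀ i j, i ≤ j → j ≤ m → ‖δ n * emb (c j) - p‖ ≤ d₂ → ‖δ n * emb (c i) - p‖ ≤ d / 4) →
      Win c m (a n 0) r r' R' R := fun c m g1 g2 g3 g4 g5 =>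
    ⟨g1, le_hex he hd s1 (by linarith), k2 _ (by linarith),
      fun i j h1 h2 h3 => le_hex he hd s1 (by
        linarith [g5 i j h1 h2 (by linarith [hex_le he hd s1 h3])]),
      fun i j h1 h2 h3 => le_hex he hd s1 (by
        linarith [g4 i j h1 h2 (by linarith [hex_le he hd s1 h3])])⟩
  exact ⟨r, r', R', R, Nat.cast_lt.1 (lt_of_mul_lt_mul_left (by linarith) hd.le),
    le_trans (by nlinarith) k1, le_trans (by nlinarith) k1,
    Nat.cast_le.1 (le_of_mul_le_mul_left (by linarith) hd), k3 _ _ (ha.adj n) s1 n1 u1.1 u2.1,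
    k3 _ _ (hb.adj n) s2 n2 u1.2 u2.2, fun x hx => le_hex he hd s1 (by linarith), k2⟩

end Vale.Agent.P153.Bk
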