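import Vale.Agent.P153.SLE.BkStm
import Vale.Agent.P153.Planar.Timar

/-! Two arcs of a lattice circle. -/

open Set Filter Topology Metric MeasureTheory

noncomputable section
namespace Vale.Agent.P153.Bk

namespace BkTwo

/-- The sites of the circle in cyclic order. -/
def w (z : V) (n i : ℕ) : V :=
  (z.1 + if i ≤ 2 * n then (n : ℤ) - i else if i ≤ 3 * n then -(n : ℤ) else
      if i ≤ 5 * n then (i : ℤ) - 4 * n else n,
    z.2 + if i ≤ n then (i : ℤ) else if i ≤ 2 * n then (n : ℤ) else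
      if i ≤ 4 * n then 3 * n - (i : ℤ) else if i ≤ 5 * n then -(n : ℤ) else (i : ℤ) - 6 * n)

variable {z : V} {n : ℕ}

theorem adj {i : ℕ} (h : i < 6 * n) : Adj (w z n i) (w z n (i + 1)) := by
  rw [adj_iff]
  simp only [w]
  split_ifs <;> omega

theorem nr {i : ℕ} (h : i ≤ 6 * n) : nrm (w z n i - z) = n := by
  rw [nrm_sub]
  simp only [w]
  split_ifs <;> omega

theorem inj {i j : ℕ} (h : i < 6 * n) (h' : j ≤ 6 * n) (e : w z n i = w z n j) :
    i = j ∨ (i = 0 ∧ j = 6 * n) := by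
  simp only [w, Prod.mk.injEq] at e
  split_ifs at e <;> omega

theorem per : w z n (6 * n) = w z n 0 := by
  simp only [w, Prod.mk.injEq]
  split_ifs <;> omega

theorem sur {x : V} (hn : n ≠ 0) (h : nrm (x - z) = n) : ∃ i < 6 * n, w z n i = x := by
  rw [nrm_sub] at h
  refine ⟨if 0 ≤ x.2 - z.2 ∧ -(n : ℤ) < x.1 - z.1 ∧ 0 < x.1 - z.1 + (x.2 - z.2) ∨ x.2 - z.2 = n then
    (n - (x.1 - z.1)).toNat else if x.1 - z.1 = -n then (3 * n - (x.2 - z.2)).toNat else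
    if x.1 - z.1 = n then (6 * n + (x.2 - z.2)).toNat else (4 * n + (x.1 - z.1)).toNat, ?_, ?_⟩
  · split_ifs <;> omega
  · simp only [w, Prod.ext_iff]
    split_ifs <;> omega

theorem seg {A : Set V} {i k : ℕ} (h : i ≤ k) (hk : k ≤ 6 * n)
    (hA : ∀ t, i ≤ t → t ≤ k → w z n t ∈ A) : Conn (fun _ _ => True) A (w z n i) (w z n k) := by
  induction k, h using Nat.le_induction with
  | base => exact .rfl
  | succ k h ih =>
    exact (ih (by omega) fun t h1 h2 => hA t h1 (by omega)).tail (adj hk) trivial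
      (hA k h (by omega)) (hA _ (by omega) le_rfl)

theorem main {i j : ℕ} (h : i ≤ j) (hj : j < 6 * n) : ∃ α : Bool → Set V,
    (∀ s, Cnn (α s) ∧ w z n i ∈ α s ∧ w z n j ∈ α s ∧ ∀ x ∈ α s, nrm (x - z) = n) ∧
    ∀ x ∈ α true, x ∈ α false → x = w z n i ∨ x = w z n j := by
  refine ⟨fun s => w z n '' bif s then Icc i j else Icc j (6 * n) ∪ Icc 0 i, fun s => ?_, ?_⟩
  · cases s
    · refine ⟨Cn.of_base (E := fun _ _ => True) (x := w z n 0) ?_, ⟨i, Or.inr ⟨i.zero_le, le_rfl⟩, rfl⟩,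
        ⟨j, Or.inl ⟨le_rfl, hj.le⟩, rfl⟩, ?_⟩
      · rintro _ ⟨k, hk | hk, rfl⟩
        · rw [← per (z := z) (n := n)]
          refine Conn.symm (fun _ _ => id) (seg hk.2 le_rfl fun t h1 h2 => ?_)
          exact ⟨t, Or.inl ⟨hk.1.trans h1, h2⟩, rfl⟩
        · exact seg hk.1 (by have := hk.2; omega) fun t h1 h2 => ⟨t, Or.inr ⟨h1, h2.trans hk.2⟩, rfl⟩
      · rintro _ ⟨k, hk | hk, rfl⟩
        · exact nr hk.2
        · exact nr (by have := hk.2; omega)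
    · refine ⟨Cn.of_base (E := fun _ _ => True) (x := w z n i) ?_, ⟨i, ⟨le_rfl, h⟩, rfl⟩,
        ⟨j, ⟨h, le_rfl⟩, rfl⟩, ?_⟩
      · rintro _ ⟨k, hk, rfl⟩
        exact seg hk.1 (hk.2.trans hj.le) fun t h1 h2 => ⟨t, ⟨h1, h2.trans hk.2⟩, rfl⟩
      · rintro _ ⟨k, hk, rfl⟩
        exact nr (hk.2.trans hj.le)
  · rintro _ ⟨a, ⟨h1, h2⟩, rfl⟩ ⟨b, hb, e⟩
    have k : b ≤ 6 * n ∧ (j ≤ b ∨ b ≤ i) := by rcases hb with hb | hb <;> obtain ⟨_, _⟩ := hb <;> omega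
    have := inj (by omega) k.1 e.symm
    exact (show a = i ∨ a = j by omega).imp (congrArg _) (congrArg _)

end BkTwo

theorem s_two : S_two := by
  intro z p q n hp hq hne
  have hn : n ≠ 0 := by
    rintro rfl
    exact hne ((sub_eq_zero.1 (nrm_eq_zero.1 hp)).trans (sub_eq_zero.1 (nrm_eq_zero.1 hq)).symm)
  obtain ⟨i, hi, rfl⟩ := BkTwo.sur hn hp
  obtain ⟨j, hj, rfl⟩ := BkTwo.sur hn hq
  rcases le_total i j with h | h
  · exact BkTwo.main h hj
  · obtain ⟨α, h1, h2⟩ := BkTwo.main (z := z) h hi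
    exact ⟨α, fun s => ⟨(h1 s).1, (h1 s).2.2.1, (h1 s).2.1, (h1 s).2.2.2⟩,
      fun x a b => (h2 x a b).symm⟩

end Vale.Agent.P153.Bk
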