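import Vale.Agent.P153.SLE.BkStm
import Vale.Agent.P153.Planar.Timar

/-! The two walls near a mark. -/

open Set Filter Topology Metric MeasureTheory

noncomputable section
namespace Vale.Agent.P153.Bk

namespace BkWall

/-- The strand of a walk that crosses the annulus. -/
structure Str (a : ℕ → V) (n : ℕ) (z : V) (r r' R' R : ℕ) (S : Set V) (e : V) : Prop where
  cn : Cn S
  eS : e ∈ S
  en : nrm (e - z) = R + 1
  wn : S ⊆ wnd a n z R
  lo : ∀ x ∈ S, r < nrm (x - z)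
  hi : ∀ x ∈ S, x = e ∨ nrm (x - z) ≤ R
  iv : ∀ ρ, r < ρ → ρ ≤ R → ∃ x ∈ S, nrm (x - z) = ρ
  all : ∀ i ≤ n, r' < nrm (a i - z) → nrm (a i - z) ≤ R' → a i ∈ S

theorem strand {a : ℕ → V} {n : ℕ} {z : V} {r r' R' R : ℕ} (hr : r ≤ R)
    (h : Win a n z r r' R' R) : ∃ S e, Str a n z r r' R' R S e := by
  classical
  have hn : a n ∉ hex z R := fun k => h.en (hex_mono R.le_succ k)
  obtain ⟨i, i1, i2, i3⟩ : ∃ i, a i ∉ hex z R ∧ (∀ k < i, a k ∈ hex z R) ∧ i ≤ n :=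
    ⟨Nat.find ⟨n, hn⟩, Nat.find_spec (p := fun i => a i ∉ hex z R) _,
      fun k hk => not_not.1 (Nat.find_min _ hk), Nat.find_min' _ hn⟩
  obtain ⟨j, j1, j2, j3⟩ : ∃ j, a j ∈ hex z r ∧ (∀ k, j < k → k ≤ i → a k ∉ hex z r) ∧ j ≤ i :=
    ⟨Nat.findGreatest (fun j => a j ∈ hex z r) i,
      Nat.findGreatest_spec (P := fun j => a j ∈ hex z r) (Nat.zero_le i) h.st,
      fun k k1 k2 => Nat.findGreatest_is_greatest (P := fun j => a j ∈ hex z r) k1 k2,
      Nat.findGreatest_le i⟩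
  have ji : j < i := j3.lt_of_ne fun e => i1 (hex_mono hr (e ▸ j1))
  have en : nrm (a i - z) = R + 1 := by
    have k1 := (h.adj (i - 1) (by omega)).nrm_le z
    have k2 := i2 (i - 1) (by omega)
    rw [show i - 1 + 1 = i by omega] at k1
    rw [mem_hex] at i1 k2
    omega
  have cn : ∀ k, j + 1 ≤ k → k ≤ i → Conn (fun _ _ => True) (a '' Ioc j i) (a (j + 1)) (a k) := by
    intro k hk
    induction k, hk using Nat.le_induction with
    | base => exact fun _ => .rfl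
    | succ k hk ih =>
      exact fun q => (ih (by omega)).tail (h.adj k (by omega)) trivial
        ⟨k, ⟨by omega, by omega⟩, rfl⟩ ⟨k + 1, ⟨by omega, q⟩, rfl⟩
  refine ⟨a '' Ioc j i, a i, Cn.of_base (E := fun _ _ => True) (x := a (j + 1)) ?_,
    ⟨i, ⟨ji, le_rfl⟩, rfl⟩, en, ?_, ?_, ?_, fun ρ p1 p2 => ?_, fun k k1 k2 k3 => ⟨k, ⟨?_, ?_⟩, rfl⟩⟩
  · rintro _ ⟨k, hk, rfl⟩
    exact cn k hk.1 hk.2
  · rintro _ ⟨k, hk, rfl⟩
    refine ⟨k, hk.2.trans i3, rfl, fun l hl => ?_⟩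
    rcases (hl.trans hk.2).eq_or_lt with rfl | q
    · exact en.le
    · exact hex_mono R.le_succ (i2 l q)
  · rintro _ ⟨k, hk, rfl⟩
    exact not_le.1 (j2 k hk.1 hk.2)
  · rintro _ ⟨k, hk, rfl⟩
    exact hk.2.eq_or_lt.imp (congrArg a) (i2 k)
  · have k1 := (h.adj j (by omega)).nrm_le z
    rw [mem_hex] at j1
    obtain ⟨v, v1, v2, -⟩ := (cn i ji le_rfl).first (φ := fun y => nrm (y - z)) (t := ρ)
      (fun _ _ q => q.nrm_lip z) (by omega) (by omega)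
    exact ⟨v, (v2.monoA inter_subset_left).mem ⟨j + 1, ⟨j.lt_succ_self, ji⟩, rfl⟩, by omega⟩
  · exact not_le.1 fun q => k2.not_ge (h.u1 k j q (j3.trans i3) j1)
  · exact not_lt.1 fun q => i1 (h.u2 i k q.le k1 k3)

theorem cn_wall {F A B α : Set V} {a b : ℕ → V} {na nb : ℕ} {z p q : V} {r r' R' R : ℕ}
    (h1 : r < r') (h3 : R' ≤ R) (hA : Str a na z r r' R' R A p) (hB : Str b nb z r r' R' R B q)
    (hF : Bd F a b na nb) (hα : Cn α) (hp : p ∈ α) (hq : q ∈ α) :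
    Cn (A ∪ B ∪ α ∪ {x | x ∉ F ∧ x ∈ hex z R' ∧ x ∉ hex z r'}) := by
  have cZ : Cn (A ∪ B ∪ α) := by
    refine Cn.of_base (E := fun _ _ => True) (x := p) ?_
    rintro x ((k | k) | k)
    · exact (hA.cn p hA.eS x k).monoA (subset_union_left.trans subset_union_left)
    · exact ((hα p hp q hq).monoA subset_union_right).trans
        ((hB.cn q hB.eS x k).monoA (subset_union_right.trans subset_union_left))
    · exact (hα p hp x k).monoA subset_union_right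
  refine cZ.of_sub (E := fun _ _ => True) subset_union_left ?_
  rintro x (k | ⟨k1, k2, k3⟩)
  · exact ⟨x, k, .rfl⟩
  rw [mem_hex] at k2 k3
  obtain ⟨u, u1, u2⟩ := hA.iv (nrm (x - z)) (by omega) (by omega)
  have key := (cn_ibd (cn_hex z _) (cn_compl_hex z _) x (mem_ibd_hex.2 rfl) u
    (mem_ibd_hex.2 u2)).ind (P := fun v => (v ∉ F ∧ Conn (fun _ _ => True)
      (A ∪ B ∪ α ∪ {x | x ∉ F ∧ x ∈ hex z R' ∧ x ∉ hex z r'}) v x) ∨ ∃ o ∈ A ∪ B ∪ α,
      Conn (fun _ _ => True) (A ∪ B ∪ α ∪ {x | x ∉ F ∧ x ∈ hex z R' ∧ x ∉ hex z r'}) o x)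
    (Or.inl ⟨k1, .rfl⟩) fun v w _ e _ hv hw ih => ih.elim (fun k => by
      rw [mem_ibd_hex] at hv hw
      by_cases f : w ∈ F
      · refine Or.inr ⟨v, Or.inl ?_, k.2⟩
        rcases hF.sub ⟨k.1, w, f, e⟩ with ⟨i, hi, rfl⟩ | ⟨i, hi, rfl⟩
        · exact Or.inl (hA.all i hi (by omega) (by omega))
        · exact Or.inr (hB.all i hi (by omega) (by omega))
      · exact Or.inl ⟨f, k.2.head e.symm trivial
          (Or.inr ⟨f, hw.trans_le k2, fun c => k3 (hw.ge.trans c)⟩)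
          (Or.inr ⟨k.1, hv.trans_le k2, fun c => k3 (hv.ge.trans c)⟩)⟩) Or.inr
  exact key.elim (fun k => ⟨u, Or.inl (Or.inl u1), k.2⟩) id

theorem cn_out (z : V) (n : ℕ) (α : Set V) :
    Cn ((hex z n)ᶜ ∪ {y | nrm (y - z) = n ∧ y ∉ α}) := by
  refine (cn_compl_hex z n).of_sub (E := fun _ _ => True) subset_union_left ?_
  rintro x (k | k)
  · exact ⟨x, k, .rfl⟩
  · obtain ⟨y, y1, y2⟩ := exists_farther z x
    have m : y ∉ hex z n := by
      rw [mem_hex, y2, k.1]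
      omega
    exact ⟨y, m, .single y1.symm trivial (Or.inl m) (Or.inr k)⟩

end BkWall

open BkWall in
theorem s_wall (h2 : S_two) : S_wall := by
  intro F a b na nb z r r' R' R h1 h1' h3 wa wb hF
  obtain ⟨A, p, hA⟩ := strand (by omega) wa
  obtain ⟨B, q, hB⟩ := strand (by omega) wb
  have aF : ∀ x ∈ A ∪ B, x ∉ F := by
    rintro x (k | k)
    · obtain ⟨i, hi, rfl, -⟩ := hA.wn k
      exact hF.aF i hi
    · obtain ⟨i, hi, rfl, -⟩ := hB.wn k
      exact hF.bF i hi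
  obtain ⟨α, hα, hα'⟩ := h2 z p q (R + 1) hA.en hB.en (by
    obtain ⟨i, hi, rfl, -⟩ := hA.wn hA.eS
    obtain ⟨j, hj, rfl, -⟩ := hB.wn hB.eS
    exact hF.ne i hi j hj)
  have hi : ∀ s, ∀ x ∈ A ∪ B ∪ α s ∪ {x | x ∉ F ∧ x ∈ hex z R' ∧ x ∉ hex z r'},
      x ∈ α s ∨ nrm (x - z) ≤ R := by
    rintro s x (((k | k) | k) | k)
    · exact (hA.hi x k).imp_left fun e : x = p => e ▸ (hα s).2.1
    · exact (hB.hi x k).imp_left fun e : x = q => e ▸ (hα s).2.2.1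
    · exact Or.inl k
    · exact Or.inr (le_trans k.2.1 h3)
  refine ⟨fun s => A ∪ B ∪ α s ∪ {x | x ∉ F ∧ x ∈ hex z R' ∧ x ∉ hex z r'},
    fun s => (hex z (R + 1))ᶜ ∪ {y | nrm (y - z) = R + 1 ∧ y ∉ α s}, fun s =>
      ⟨cn_wall h1 h3 hA hB hF (hα s).1 (hα s).2.1 (hα s).2.2.1, cn_hex z r, cn_out z _ _,
        hex_mono h1.le, disjoint_left.2 ?_, disjoint_left.2 ?_, disjoint_left.2 ?_, ?_, fun k => ?_,
        fun x x1 x2 => ⟨?_, fun k => Or.inr ⟨k, x1, x2⟩⟩⟩, fun s => ?_, fun y hy => ?_⟩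
  · rintro x hx (((k | k) | k) | k)
    · exact (hA.lo x k).not_ge hx
    · exact (hB.lo x k).not_ge hx
    · rw [mem_hex, (hα s).2.2.2 x k] at hx
      omega
    · exact k.2.2 (hex_mono h1.le hx)
  · rintro x (k | k) hx
    · exact k ((hi s x hx).elim (fun e => ((hα s).2.2.2 x e).le) fun e => e.trans R.le_succ)
    · exact (hi s x hx).elim k.2 fun e => by have := k.1; omega
  · rintro x (k | k) hx
    · exact k (hex_mono (by omega) hx)
    · rw [mem_hex, k.1] at hx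
      omega
  · obtain ⟨x, x1, x2⟩ := hA.iv r' h1 (h1'.trans h3)
    exact ⟨x, Or.inl (Or.inl (Or.inl x1)), x2.le⟩
  · have := k (Or.inl (Or.inr (hα s).2.1))
    rw [mem_hex, hA.en] at this
    omega
  · rintro ((k | k) | k)
    · exact aF x k
    · rw [mem_hex, (hα s).2.2.2 x k] at x1
      omega
    · exact k.1
  · rintro x (((k | k) | k) | k) hx
    · exact Or.inl (Or.inl (hA.wn k))
    · exact Or.inl (Or.inr (hB.wn k))
    · rw [mem_hex, (hα s).2.2.2 x k] at hx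
      omega
    · exact Or.inr ⟨k.1, k.2.1⟩
  · by_cases t : y ∈ α true
    · by_cases f : y ∈ α false
      · exact Or.inl ((hα' y t f).imp (fun e : y = p => e ▸ hA.wn hA.eS)
          fun e : y = q => e ▸ hB.wn hB.eS)
      · exact Or.inr ⟨false, Or.inr ⟨hy, f⟩⟩
    · exact Or.inr ⟨true, Or.inr ⟨hy, t⟩⟩

end Vale.Agent.P153.Bk
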