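import Vale.Agent.P153.A2.Stm
import Vale.Agent.P153.SLE.Basic

/-! The lattice part assembled. -/

open Set Filter Topology Metric MeasureTheory

namespace Vale.Agent.P153.SLE

open Vale.Agent.P164 (Pth)
open Vale.Agent.P153.A2 (Maps cv UK)

/-- No return from the end point. -/
def BACK : Prop := ∀ ψ L δ (ε : ℤ) Ψ, IsJordanMap ψ → Approx ψ L δ → (ε = 1 ∨ ε = -1) →
  Maps ψ L δ Ψ → ∀ e η : ℝ, 0 < e → 0 < η → ∃ k, 0 < k ∧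
    ∀ᶠ n in atTop, Pr ((L n).Hts ε) {h | Bk (cv (Ψ n) (L n) (δ n) h) k e} ≤ η

/-- The reversed domains. -/
def REV : Prop := ∀ ψ L δ (ε : ℤ) Ψ, IsJordanMap ψ → Approx ψ L δ → (ε = 1 ∨ ε = -1) →
  Maps ψ L δ Ψ → ∃ L' : ℕ → LDom, Approx (fun z => ψ (-z)) L' δ ∧
    Maps (fun z => ψ (-z)) L' δ (fun n z => Ψ n (-z)) ∧ (∀ n, (L' n).Hts (-ε) = (L n).Hts ε) ∧
    ∀ᶠ n in atTop, ∀ h ∈ (L n).Hts ε, ∀ s ∈ Icc (0 : ℝ) 1,
      A2.gm (L' n) (δ n) h s = A2.gm (L n) (δ n) h (1 - s)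

def UKE : Prop := ∀ ψ L δ, IsJordanMap ψ → Approx ψ L δ → ∃ K, UK δ K

def LAW : Prop := ∀ (μ : Measure Pth) H (W : ℕ → Cfg → Pth), BM μ → (∀ᶠ n in atTop, Good (H n)) →
  (∀ᶠ n in atTop, ∀ h ∈ H n, ∀ u ≤ 0, W n h u = 0) → Drive.Conv H W → Law μ H W

def CAP : Prop := ∀ (μ : Measure Pth) (ι : Type) H (lab : ℕ → ℕ → Cfg → ι) t W K, BM μ →
  Drive.Drv H lab t W K → Drive.Conv H W → ∀ x : ℕ → Cfg → ℝ,
    (∀ᶠ n in atTop, ∀ h ∈ H n, ∀ m, t n m h ≤ x n h) →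
    ∀ T : ℝ, Tendsto (fun n => Pr (H n) {h | x n h < T}) atTop (𝓝 0)

variable {c d : ℝ → ℂ}

theorem DC.congr (h : DC c) (e : EqOn d c (Icc 0 1)) : DC d :=
  ⟨h.cont.congr e, h.inj.congr e.symm, (e ⟨le_rfl, zero_le_one⟩).trans h.c0,
    (e ⟨zero_le_one, le_rfl⟩).trans h.c1, fun s hs => e (Ioo_subset_Icc_self hs) ▸ h.ins s hs⟩

theorem Drv.congr {S τ W} (h : Drv c S τ W) (e : EqOn d c (Icc 0 1)) : Drv d S τ W :=
  { h with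
    dom := fun s hs => by
      rw [h.dom s hs]
      exact congrArg _ (image_congr fun v hv => by
        rw [e ⟨hv.1.le, hv.2.trans (hs.2.trans h.S1.le)⟩]) }

theorem Bk.congr {k r : ℝ} (h : Bk c k r) (e : EqOn d c (Icc 0 1)) : Bk d k r :=
  let ⟨s, v, a1, a2, a3, a4, a5⟩ := h
  ⟨s, v, a1, a2, a3, e ⟨a1, a2.trans a3⟩ ▸ a4, e ⟨a1.trans a2, a3⟩ ▸ a5⟩

theorem Conv.congr {μ H} {c d : ℕ → Cfg → ℝ → ℂ} {S τ W} (h : Conv μ H c S τ W)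
    (e : ∀ᶠ n in atTop, ∀ k ∈ H n, EqOn (d n k) (c n k) (Icc 0 1)) : Conv μ H d S τ W where
  drv := (h.drv.and e).mono fun _ a k hk =>
    ⟨(a.1 k hk).1.congr (a.2 k hk), (a.1 k hk).2.congr (a.2 k hk)⟩
  law := h.law
  cap := h.cap
  back := fun r η hr hη => (h.back r η hr hη).imp fun _ a => ⟨a.1, (a.2.and e).mono fun _ b =>
    (Pr_mono fun k hk q => Bk.congr q (b.2 k hk).symm).trans b.1⟩

theorem jm_neg {ψ : ℂ → ℂ} (h : IsJordanMap ψ) : IsJordanMap fun z => ψ (-z) := by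
  have k : MapsTo (fun z : ℂ => -z) (closedBall 0 1) (closedBall 0 1) := fun z hz => by simpa using hz
  exact ⟨h.1.comp continuousOn_neg k, h.2.1.comp neg_injective.injOn k,
    h.2.2.comp differentiableOn_id.neg fun z hz => by simpa using hz⟩

theorem inv_neg {Ψ : ℂ → ℂ} (h : IsJordanMap Ψ) {w : ℂ} (hw : w ∈ closedBall (0 : ℂ) 1) :
    Function.invFunOn (fun z => Ψ (-z)) (closedBall 0 1) (Ψ w) = -w := by
  have := (jm_neg h).2.1.leftInvOn_invFunOn (x := -w) (by simpa using hw)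
  simpa using this

theorem geoa_of (h1 : A2.S_maps) (h2 : A2.Out) (h3 : A2.S_lat) (h4 : A2.S_dc) (h5 : Drive.Out)
    (h6 : UKE) (h7 : LAW) (h8 : CAP) (h9 : BACK) (h10 : REV) : GEOA := by
  have key : ∀ ψ L δ (ε : ℤ) Ψ μ, IsJordanMap ψ → Approx ψ L δ → (ε = 1 ∨ ε = -1) → BM μ →
      Maps ψ L δ Ψ → (∀ n, Good ((L n).Hts ε)) ∧ ∃ S τ W, Conv μ (fun n => (L n).Hts ε)
        (fun n h => cv (Ψ n) (L n) (δ n) h) S τ W := by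
    intro ψ L δ ε Ψ μ hψ hL hε hμ hΨ
    obtain ⟨K, hK⟩ := h6 ψ L δ hψ hL
    obtain ⟨S, τ, W, t, a1, a2⟩ := h2 ψ L δ ε Ψ K hψ hL hε hΨ hK
    have a3 := (h5 _ _ _ t W K a2).2
    exact ⟨a2.good, S, τ, W, a1.mono fun n a h hh => ⟨(a h hh).1, (a h hh).2.1⟩,
      h7 μ _ W hμ (.of_forall a2.good) (a1.mono fun n a h hh => (a h hh).2.2.1) a3,
      h8 μ _ _ _ t W K hμ a2 a3 _ (a1.mono fun n a h hh => (a h hh).2.2.2),
      h9 ψ L δ ε Ψ hψ hL hε hΨ⟩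
  intro ψ L δ ε μ hψ hL hε hμ
  obtain ⟨Ψ, hΨ⟩ := h1 ψ L δ hψ hL
  obtain ⟨L', b1, b2, b3, b4⟩ := h10 ψ L δ ε Ψ hψ hL hε hΨ
  obtain ⟨a1, a2⟩ := key ψ L δ ε Ψ μ hψ hL hε hμ hΨ
  obtain ⟨-, S, τ, W, a3⟩ := key _ L' δ (-ε) _ μ (jm_neg hψ) b1 (by omega) hμ b2
  have hd := (hΨ.2.and (h3 ψ L δ ε hψ hL hε)).mono fun n a h hh =>
    h4 (L n) (δ n) (Ψ n) ε h a.1 (a.2 h hh)
  simp only [b3] at a3
  refine ⟨Ψ, _, hΨ.1, hd.mono fun n a => ⟨a1 n, fun h hh => ⟨?_, .refl _, fun t => ?_⟩⟩, a2,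
    S, τ, W, a3.congr ?_⟩
  · exact (a h hh).2.1.comp_continuous continuous_subtype_val fun t => t.2
  · exact ((a h hh).2.2 t t.2).symm
  · filter_upwards [hd, b4, hΨ.2] with n a b j h hh s hs
    have hs' : 1 - s ∈ Icc (0 : ℝ) 1 := ⟨sub_nonneg.2 hs.2, sub_le_self _ hs.1⟩
    rw [cv, b h hh s hs, ← (a h hh).2.2 _ hs',
      inv_neg j.jm (mem_closedBall_zero_iff.2 ((a h hh).1.norm_le hs')), rev]

end Vale.Agent.P153.SLE
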