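import Vale.Agent.P153.SLE.BkWalk
import Vale.Agent.P153.SLE.BkK4
import Vale.Agent.P153.SLE.BkTwo
import Vale.Agent.P153.SLE.BkWall
import Vale.Agent.P153.SLE.BkChain
import Vale.Agent.P153.SLE.BkLat
import Vale.Agent.P153.SLE.BkMkP
import Vale.Agent.P153.SLE.BkMkM
import Vale.Agent.P153.SLE.BkRad
import Vale.Agent.P153.SLE.BkD
import Vale.Agent.P153.SLE.BkBack
import Vale.Agent.P153.SLE.Glue
import Vale.Agent.P153.A2.Poly
import Vale.Agent.P153.Wick.Main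

/-! The interface does not return from its end point. -/

open Set Filter Topology

namespace Vale.Agent.P153.Bk

theorem lat_all : S_lat :=
  s_lat (Wick.s_bij Wick.ld2_ok) Wick.ld2_ok k4le_all k4ge_all par_all (s_wall s_two) s_chain

theorem bkD_of (h : A2.S_lat) : BkD :=
  bkD Wick.s_emb (lat_of A2.s_poly h) lat_all
    (s_mkP Wick.s_ld1 Wick.s_conf Wick.arc_ok Wick.s_emb)
    (s_mkM Wick.s_ld1 Wick.s_conf Wick.arc_ok Wick.s_emb) (s_rad Wick.s_emb)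

theorem back_of (h : A2.S_lat) (hd : A2.S_dc) : SLE.BACK := by
  intro ψ L δ ε Ψ hψ hL hε hΨ e η he hη
  have g : ∀ n, Good ((L n).Hts ε) := fun n =>
    let ⟨_, b, _⟩ := Wick.s_bij Wick.ld2_ok (L n) ε hε
    Good.bij b (Wick.s_loc.1 _ _ (Wick.ld2_ok (L n)).1.1)
  refine (s_back Wick.s_conf (bkD_of h) ψ L δ ε Ψ _ hψ hL hε hΨ.1 g ?_ e η he hη).imp
    fun k a => ⟨a.1, a.2.mono fun n b => b.1⟩
  filter_upwards [hΨ.2, h ψ L δ ε hψ hL hε] with n a b x hx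
  have c := hd (L n) (δ n) (Ψ n) ε x a (b x hx)
  exact ⟨c.1, .refl _, fun t => (c.2.2 t t.2).symm⟩

end Vale.Agent.P153.Bk
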