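import Vale.Agent.P153.SLE.BkStm
import Vale.Agent.P153.Wick.Arc

/-! The boundary vertices seen in the disc: common lemmas for the two arcs. -/

open Set Filter Topology Metric MeasureTheory

namespace Vale.Agent.P153.Bk.BkMk0

open Vale.Agent.P153.Wick Vale.Agent.P153.Wick.Arc

variable {ψ : ℂ → ℂ} {L : ℕ → LDom} {δ : ℕ → ℝ}

theorem uni {s t u : unitInterval} (h1 : s ≤ t) (h2 : t ≤ u) :
    (cir s).re ≤ (cir t).re ∨ (cir u).re ≤ (cir t).re := by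
  have p := Real.pi_pos
  have h1 : (s : ℝ) ≤ t := h1
  have h2 : (t : ℝ) ≤ u := h2
  simp only [cir_re]
  rcases le_total (t : ℝ) (1 / 2) with h | h
  · exact Or.inl (Real.cos_le_cos_of_nonneg_of_le_pi (by nlinarith) (by nlinarith [s.2.1])
      (by nlinarith))
  · right
    rw [← Real.cos_neg, ← Real.cos_neg (Real.pi * (1 - 2 * (t : ℝ)))]
    exact Real.cos_le_cos_of_nonneg_of_le_pi (by nlinarith) (by nlinarith [u.2.2]) (by nlinarith)

theorem sq_dist (t : ℝ) {p : ℂ} (hp : p = 1 ∨ p = -1) :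
    dist (cir t) p ^ 2 = 2 - 2 * (p.re * (cir t).re) := by
  have := Real.sin_sq_add_cos_sq (Real.pi * (1 - 2 * t))
  rw [dist_eq_norm, Complex.sq_norm, Complex.normSq_apply, Complex.sub_re, Complex.sub_im, cir_re,
    cir_im]
  rcases hp with rfl | rfl <;> simp <;> linarith

theorem core (h1 : S_ld1) (hc : S_conf) (hψ : IsJordanMap ψ) (hA : Approx ψ L δ) (e : ℝ)
    (he : 0 < e) : ∃ d η : ℝ, 0 < d ∧ η < 1 ∧ ∀ᶠ n in atTop, ∃ x : ℕ → ℝ,
      (∀ i j l, i ≤ j → j ≤ l → l ≤ (L n).N → x i ≤ x j ∨ x l ≤ x j) ∧ 1 - η ≤ x (L n).k ∧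
      ∀ i ≤ (L n).N, ∀ p : ℂ, p = 1 ∨ p = -1 →
        (‖δ n * emb ((L n).β i) - ψ p‖ ≤ d → 1 - η ≤ p.re * x i) ∧
        (1 - η ≤ p.re * x i → ‖δ n * emb ((L n).β i) - ψ p‖ ≤ e) := by
  obtain ⟨-, -, a3, a4⟩ := hA
  obtain ⟨d1, d0, b1⟩ := (hc ψ hψ).2.2.2.2.2.1 (e / 2) (half_pos he)
  have m0 : 0 < min d1 1 := lt_min d0 one_pos
  have m1 : min d1 1 ^ 2 ≤ 1 := pow_le_one₀ m0.le (min_le_right _ _)
  obtain ⟨d2, d0', b2⟩ := (hc ψ hψ).2.2.2.2.2.1 (min d1 1) m0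
  refine ⟨d2 / 2, min d1 1 ^ 2 / 2, half_pos d0', by linarith, ?_⟩
  filter_upwards [a4 _ (lt_min (half_pos he) (half_pos d0')),
    Metric.tendsto_nhds.1 a3 _ (half_pos d0')] with n ⟨ρ, hρ⟩ hk
  have c1 : ∀ j (hj : min j (L n).N ≤ (L n).N), j ≤ (L n).N → dist ((δ n : ℂ) * emb ((L n).β j))
      (ψ (cir (ρ.symm (tm (L n) _ hj)))) ≤ min (e / 2) (d2 / 2) := fun j hj hj' => by
    have b2 := hρ (ρ.symm (tm (L n) _ hj))
    rw [ρ.apply_symm_apply] at b2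
    rw [← (h1 (L n)).2.1 j hj']
    simpa only [tm, min_eq_left hj', cir] using b2
  have c2 : ∀ i ≤ (L n).N, ∀ p : ℂ, p = 1 ∨ p = -1 →
      (‖δ n * emb ((L n).β i) - ψ p‖ ≤ d2 / 2 → 1 - min d1 1 ^ 2 / 2 ≤
        p.re * (cir (ρ.symm (tm (L n) _ (min_le_right i _)))).re) ∧
      (1 - min d1 1 ^ 2 / 2 ≤ p.re * (cir (ρ.symm (tm (L n) _ (min_le_right i _)))).re →
        ‖δ n * emb ((L n).β i) - ψ p‖ ≤ e) := fun i hi p hp => by
    have c := le_min_iff.1 (c1 i (min_le_right _ _) hi)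
    have s := sq_dist (ρ.symm (tm (L n) _ (min_le_right i _))) hp
    have pm : p ∈ closedBall (0 : ℂ) 1 := by rcases hp with rfl | rfl <;> simp
    rw [← dist_eq_norm]
    refine ⟨fun h => ?_, fun h => ?_⟩
    · have := pow_le_pow_left₀ dist_nonneg ((b2 _ (cir_mem _) p pm).2
        ((dist_triangle_left _ _ _).trans ((add_le_add c.2 h).trans (add_halves d2).le))) 2
      linarith
    · have := (b1 _ (cir_mem _) p pm).1
        ((abs_le_of_sq_le_sq' (by linarith) m0.le).2.trans (min_le_left d1 1))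
      exact (dist_triangle _ _ _).trans ((add_le_add c.1 this).trans (add_halves e).le)
  refine ⟨fun i => (cir (ρ.symm (tm (L n) _ (min_le_right i _)))).re, fun i j l hij hjl _ =>
    uni ?_ ?_, ?_, c2⟩
  · exact ρ.symm.monotone (not_lt.1 fun h => ((tm_lt _ _ _).1 h).not_ge (min_le_min_right _ hij))
  · exact ρ.symm.monotone (not_lt.1 fun h => ((tm_lt _ _ _).1 h).not_ge (min_le_min_right _ hjl))
  · simpa using (c2 _ (L n).k_lt.le 1 (Or.inl rfl)).1 (by rw [← dist_eq_norm]; exact hk.le)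

theorem adj_lim (he : S_emb) (hA : Approx ψ L δ) {a b : ℕ → V} {p : ℂ} (h : ∀ n, Adj (a n) (b n))
    (hb : Tendsto (fun n => (δ n : ℂ) * emb (b n)) atTop (𝓝 p)) :
    Tendsto (fun n => (δ n : ℂ) * emb (a n)) atTop (𝓝 p) := by
  refine hb.congr_dist (squeeze_zero (fun _ => dist_nonneg) (fun n => ?_) hA.2.1)
  rw [dist_eq_norm, ← mul_sub, ← he.2.1, norm_mul, Complex.norm_real,
    Real.norm_of_nonneg (hA.1 n).le]
  refine mul_le_of_le_one_right (hA.1 n).le ((he.2.2.1 _).1.trans ?_)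
  rw [adj_iff_nrm.1 (h n), Nat.cast_one]

theorem far (hψ : IsJordanMap ψ) {z : ℕ → ℂ} :
    (Tendsto z atTop (𝓝 (ψ 1)) → ∀ᶠ n in atTop, ‖ψ 1 - ψ (-1)‖ / 2 ≤ ‖z n - ψ (-1)‖) ∧
    (Tendsto z atTop (𝓝 (ψ (-1))) → ∀ᶠ n in atTop, ‖ψ 1 - ψ (-1)‖ / 2 ≤ ‖z n - ψ 1‖) := by
  have h : 0 < ‖ψ 1 - ψ (-1)‖ := norm_pos_iff.2 (sub_ne_zero.2 fun e => by
    have := hψ.2.1 (by simp) (by simp) e
    norm_num at this)
  exact ⟨fun k => (k.sub_const _).norm.eventually_const_le (half_lt_self h), fun k =>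
    (k.sub_const _).norm.eventually_const_le ((half_lt_self h).trans_eq (norm_sub_rev _ _))⟩

end Vale.Agent.P153.Bk.BkMk0
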