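import Vale.Agent.P153.SLE.BkStm
import Vale.Agent.P153.A2.Stm
import Vale.Agent.P153.K2.RStm

/-! The lattice inputs of the no return estimate. -/

open Set Filter Topology

noncomputable section
namespace Vale.Agent.P153.Bk

open Vale.Agent.P153.Wick (Fr arcP arcM)

namespace BkWalk

theorem step_eq (h : V → ℤ) (e : V × V) :
    step h e = if h (nxt e.1 e.2) = h e.1 then (nxt e.1 e.2, e.2) else (e.1, nxt e.1 e.2) := by
  have : e.2 + ((e.1 - e.2).1 + (e.1 - e.2).2, -(e.1 - e.2).1) = nxt e.1 e.2 := by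
    ext <;> simp [nxt] <;> ring
  rw [step, this]

theorem edge_succ (L : LDom) (h : V → ℤ) (m : ℕ) : L.edge h (m + 1) = step h (L.edge h m) :=
  Function.iterate_succ_apply' _ _ _

theorem vert_of {L : LDom} {x : V} (h : x ∈ Fr L ∪ arcP L ∨ x ∈ Fr L ∪ arcM L) : x ∈ L.vert := by
  rcases h with (h | ⟨i, hi, rfl⟩) | (h | ⟨i, hi, rfl⟩)
  · exact Or.inl h
  · exact Or.inr ⟨i, lt_trans hi L.k_lt, rfl⟩
  · exact Or.inl h
  · exact Or.inr ⟨i, hi.2, rfl⟩

theorem walk_of (hp : A2.S_poly) {L : LDom} {ε : ℤ} {h : V → ℤ} (hε : ε = 1 ∨ ε = -1)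
    (hh : h ∈ L.Hts ε) (a : A2.Lat L ε h) : Walk L ε h := by
  have key : ∀ m ≤ L.len h, h (L.edge h m).1 = ε ∧ h (L.edge h m).2 = -ε := by
    intro m
    induction m with
    | zero =>
      intro _
      have := L.k_lt
      exact ⟨hh.2.2.1 0 L.k_pos, hh.2.2.2.1 _ (by omega) (by omega)⟩
    | succ m ih =>
      intro hm
      obtain ⟨i1, i2⟩ := ih (by omega)
      have ad := a.adj m (by omega)
      have v1 := vert_of (Or.inl (a.inl m (by omega)))
      have v2 := vert_of (Or.inr (a.inr m (by omega)))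
      have v3 := vert_of (Or.inr (a.inr (m + 1) hm))
      rw [edge_succ, step_eq] at v3 ⊢
      split_ifs at v3 ⊢ with c
      · exact ⟨c.trans i1, i2⟩
      · refine ⟨i1, ?_⟩
        have b1 := hh.2.2.2.2 _ v1 _ v3 ad.nxt
        have b2 := hh.2.2.2.2 _ v2 _ v3 ad.nxt'
        rw [i1] at b1 c
        rw [i2] at b2
        dsimp only at b1 b2 ⊢
        generalize h (nxt (L.edge h m).1 (L.edge h m).2) = t at *
        rcases hε with rfl | rfl <;> simp only [abs_eq_zero, abs_eq (by norm_num : (0 : ℤ) ≤ 2)] at b1 b2 <;>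
          omega
  refine ⟨a.last, a.adj, fun m hm => ⟨(key m hm).1, a.inl m hm⟩,
    fun m hm => ⟨(key m hm).2, a.inr m hm⟩, fun i hi j hj e => ?_⟩
  have hl : (0 : ℝ) < L.len h := by exact_mod_cast a.pos
  have mem : ∀ i ≤ L.len h, (i : ℝ) / L.len h ∈ Icc (0 : ℝ) 1 := fun i hi =>
    ⟨by positivity, (div_le_one hl).2 (by exact_mod_cast hi)⟩
  have q := (hp (A2.mid L h) _ a.pos).2.1
  have := a.inj (mem i hi) (mem j hj) (by rw [q i hi, q j hj, A2.mid, A2.mid, e])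
  exact_mod_cast (div_left_inj' hl.ne').1 this

end BkWalk

theorem lat_of (hp : A2.S_poly) (h : A2.S_lat) : Lat := fun ψ L δ ε a b c =>
  (h ψ L δ ε a b c).mono fun _ k x hx => BkWalk.walk_of hp c hx (k x hx)

theorem s_par (h : K2.S_par) : S_par := by
  intro L ε g O j₀ j₁ m j₂ hε w cO h0 h1 h2 h3 o1 o2 o3 o4 c1 c2
  refine h _ _ O (fun i => (L.edge g i).1) (fun i => (L.edge g i).2) (L.len g) j₀ j₁ m j₂ ?_
    (fun i hi => ⟨?_, ?_, w.adj i hi⟩) (fun i _ => ?_)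
    (fun i hi i' hi' e e' => w.inj hi hi' (Prod.ext e e')) h0 h1 h2 h3 cO (Or.inl o1) (Or.inl o2)
    o3 o4 c1 c2
  · exact disjoint_left.2 fun x (a : 0 < ε * g x) (b : ε * g x < 0) => lt_asymm a b
  · show 0 < ε * g _
    rw [(w.lft i hi).1]
    rcases hε with rfl | rfl <;> norm_num
  · show ε * g _ < 0
    rw [(w.rgt i hi).1]
    rcases hε with rfl | rfl <;> norm_num
  · simp only [BkWalk.edge_succ, BkWalk.step_eq]
    split_ifs
    · exact Or.inl ⟨rfl, rfl⟩
    · exact Or.inr ⟨rfl, rfl⟩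

theorem k4le_of (h : K2.K4le) : K4le := fun η hη =>
  (h η hη).imp fun _ k F S W T O z r R a b c d w =>
    k F S W T O z r R ⟨a, b, c, w.cW, w.cT, w.cO, w.Tr, w.TW, w.OW, w.OR, w.near, w.far, w.ann⟩ d

theorem k4ge_of (h : K2.K4ge) : K4ge := fun η hη =>
  (h η hη).imp fun _ k F S W T O z r R a b c d w =>
    k F S W T O z r R ⟨a, b, c, w.cW, w.cT, w.cO, w.Tr, w.TW, w.OW, w.OR, w.near, w.far, w.ann⟩ d

end Vale.Agent.P153.Bk
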