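import Vale.Agent.P153.SLE.RevL
import Vale.Agent.P153.SLE.RevA
import Vale.Agent.P153.SLE.DLaw

/-! Reversal, convergence in law and the final capacity. -/

namespace Vale.Agent.P153.SLE

theorem rev_all (h : A2.S_lat) : REV :=
  rev_of h (fun _ => bd_rev_image rfl fun _ => rfl) fun _ _ _ hψ hL =>
    approx_rev hψ hL _ (fun _ => rfl) (fun _ => rfl) fun _ _ => rfl

theorem law_all : LAW := fun _ _ _ hμ _ h0 hc => law_of hμ h0 hc

theorem cap_all : CAP := fun _ _ _ _ _ _ _ hμ h hc x hx T => cap_of hμ h.fin hc x hx T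

end Vale.Agent.P153.SLE
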