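import Vale.Agent.P153.Mean
import Vale.Agent.P153.SLE.All
import Vale.Agent.P153.SLE.BkAll
import Vale.Agent.P153.SLE.DrvAll
import Vale.Agent.P153.SLE.Rev

/-! The convergence of the interface from the slit domain module and the no return estimate. -/

open Set Filter Topology

namespace Vale.Agent.P153.SLE

universe u

theorem uke_all : UKE := fun ψ L δ hψ hL => by
  obtain ⟨K, ⟨a, b, ha, h1⟩, h2, -⟩ := uniK_all ψ L δ 1 hψ hL (Or.inl rfl)
  exact ⟨K, ⟨b, fun n => (abs_of_pos (ha.trans_le (h1 n).1)).trans_le (h1 n).2⟩, h2⟩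

theorem sle_of' (h1 : A2.S_maps) (h2 : A2.Out) (h3 : A2.S_lat) (h4 : A2.S_dc) : SLEconv.{u} :=
  sle_of (geoa_of h1 h2 h3 h4 Drive.out_all uke_all law_all cap_all (Bk.back_of h3 h4) (rev_all h3))

end Vale.Agent.P153.SLE
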