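import Vale.Agent.P153.A2.All
import Vale.Agent.P153.A2.LatDg
import Vale.Agent.P153.A2.LatFace
import Vale.Agent.P153.A2.LatJump
import Vale.Agent.P153.A2.LatLine
import Vale.Agent.P153.A2.LatMark
import Vale.Agent.P153.A2.LatOf
import Vale.Agent.P153.A2.LatOri
import Vale.Agent.P153.A2.LatTri
import Vale.Agent.P153.A2.LatWalk
import Vale.Agent.P153.SLE.Geo2

/-! The interface converges to the trace driven by twice a Brownian motion. -/

namespace Vale.Agent.P153.SLE

open A2

universe u

theorem lat_full : A2.S_lat :=
  have hf : S_face := s_face s_tri s_plan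
  s_lat (s_ori s_tri hf (s_dg CA.s_bdir) (s_psi CA.s_bconv) (s_jump s_tri hf s_plan) jl_all
    CA.jct_all Wick.seq_ok) (s_walk hf) (s_line s_tri hf s_plan) s_mark

theorem out_full : A2.Out := A2.out_all lat_full

theorem sle_all : SLEconv.{u} := sle_of' maps_all out_full lat_full dc_all

end Vale.Agent.P153.SLE
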