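import Vale.Agent.P153.SLE.Glue

/-! The reversed lattice domain. -/

open Set Filter Topology Metric

namespace Vale.Agent.P153.SLE

open Vale.Agent.P153.Wick (Fr arcP arcM)
open Vale.Agent.P153.A2 (JM Lat mid gm)

theorem rv_mod {N k i : ℕ} (hk : k < N) (hi : i < N) :
    (i + k < N ∧ (i + k) % N = i + k) ∨ (N ≤ i + k ∧ (i + k) % N = i + k - N) := by
  rcases lt_or_ge (i + k) N with h | h
  · exact Or.inl ⟨h, Nat.mod_eq_of_lt h⟩
  · exact Or.inr ⟨h, by rw [Nat.mod_eq_sub_mod h, Nat.mod_eq_of_lt (by omega)]⟩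

theorem rv_succ (L : LDom) (j : ℕ) : L.β ((j + 1) % L.N) = L.β (j % L.N + 1) := by
  have h0 : 0 < L.N := lt_of_lt_of_le (by norm_num) L.three
  have h1 := Nat.mod_lt j h0
  rw [← Nat.mod_add_mod]
  rcases lt_or_eq_of_le (Nat.succ_le_of_lt h1) with h | h
  · rw [Nat.mod_eq_of_lt h]
  · have h' : j % L.N + 1 = L.N := h
    rw [h', Nat.mod_self, L.closed]

/-- The domain with the marks exchanged. -/
def rv (L : LDom) : LDom where
  N := L.N
  k := L.N - L.k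
  β := fun i => L.β ((i + L.k) % L.N)
  k_pos := Nat.sub_pos_of_lt L.k_lt
  k_lt := Nat.sub_lt (L.k_pos.trans L.k_lt) L.k_pos
  three := L.three
  adj := fun i _ => by
    rw [Nat.add_right_comm, rv_succ]
    exact L.adj _ (Nat.mod_lt _ (L.k_pos.trans L.k_lt))
  closed := by simp
  inj := fun i hi j hj e => by
    have h0 := L.k_pos.trans L.k_lt
    have h1 := L.inj (Nat.mod_lt (i + L.k) h0) (Nat.mod_lt (j + L.k) h0) e
    have h2 := rv_mod L.k_lt hi
    have h3 := rv_mod L.k_lt hj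
    have h4 : i < L.N := hi
    have h5 : j < L.N := hj
    omega

variable {L : LDom} {ε : ℤ} {h : V → ℤ}

theorem rv_lo {i : ℕ} (hi : i < L.N - L.k) : (rv L).β i = L.β (i + L.k) :=
  congrArg L.β (Nat.mod_eq_of_lt (by omega))

theorem rv_hi {j : ℕ} (hj : j < L.k) : (rv L).β (j + (L.N - L.k)) = L.β j := by
  have := L.k_lt
  refine congrArg L.β ?_
  rw [show j + (L.N - L.k) + L.k = j + L.N by omega, Nat.add_mod_right,
    Nat.mod_eq_of_lt (by omega)]

theorem rv_arcP (L : LDom) : arcP (rv L) = arcM L := by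
  ext x
  constructor
  · rintro ⟨i, hi, rfl⟩
    have hi' : i < L.N - L.k := hi
    exact ⟨i + L.k, ⟨by omega, by omega⟩, (rv_lo hi').symm⟩
  · rintro ⟨j, hj, rfl⟩
    have h1 : j - L.k < L.N - L.k := by have := hj.1; have := hj.2; omega
    exact ⟨j - L.k, h1, by rw [rv_lo h1, Nat.sub_add_cancel hj.1]⟩

theorem rv_arcM (L : LDom) : arcM (rv L) = arcP L := by
  have := L.k_lt
  ext x
  constructor
  · rintro ⟨i, hi, rfl⟩
    have h1 : L.N - L.k ≤ i := hi.1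
    have h2 : i < L.N := hi.2
    have h3 : i - (L.N - L.k) < L.k := by omega
    exact ⟨_, h3, by rw [← rv_hi h3, Nat.sub_add_cancel h1]⟩
  · rintro ⟨j, hj, rfl⟩
    have hj' : j < L.k := hj
    exact ⟨j + (L.N - L.k), ⟨Nat.le_add_left _ _, by change _ < L.N; omega⟩, rv_hi hj'⟩

theorem rv_vert' (L : LDom) : L.vert = Fr L ∪ (arcP L ∪ arcM L) := by
  ext x
  refine or_congr_right ⟨?_, ?_⟩
  · rintro ⟨i, hi, rfl⟩
    rcases lt_or_ge i L.k with h | h
    · exact Or.inl ⟨i, h, rfl⟩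
    · exact Or.inr ⟨i, ⟨h, hi⟩, rfl⟩
  · rintro (⟨i, hi, rfl⟩ | ⟨i, hi, rfl⟩)
    · exact ⟨i, lt_trans hi L.k_lt, rfl⟩
    · exact ⟨i, hi.2, rfl⟩

theorem rv_hts' (L : LDom) (ε : ℤ) : L.Hts ε = {h | (∀ x ∈ L.vert, Odd (h x)) ∧
    (∀ x, x ∉ L.vert → h x = 0) ∧ (∀ x ∈ arcP L, h x = ε) ∧ (∀ x ∈ arcM L, h x = -ε) ∧
    ∀ x ∈ L.vert, ∀ y ∈ L.vert, Adj x y → |h x - h y| = 0 ∨ |h x - h y| = 2} := by
  ext h
  refine and_congr_right fun _ => and_congr_right fun _ => and_congr ?_ (and_congr_left fun _ => ?_)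
  · exact ⟨fun a x ⟨i, hi, e⟩ => e ▸ a i hi, fun a i hi => a _ ⟨i, hi, rfl⟩⟩
  · exact ⟨fun a x ⟨i, hi, e⟩ => e ▸ a i hi.1 hi.2, fun a i h1 h2 => a _ ⟨i, ⟨h1, h2⟩, rfl⟩⟩

section
variable (hb : (rv L).bd '' Icc 0 1 = L.bd '' Icc 0 1)
include hb

theorem rv_dom : (rv L).dom = L.dom := by rw [LDom.dom, LDom.dom, hb]

theorem rv_vert : (rv L).vert = L.vert := by
  rw [rv_vert', rv_vert', rv_arcP, rv_arcM, Fr, Fr, rv_dom hb, union_comm (arcM L)]

theorem rv_hts (ε : ℤ) : (rv L).Hts (-ε) = L.Hts ε := by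
  rw [rv_hts', rv_hts', rv_vert hb, rv_arcP, rv_arcM, neg_neg]
  ext h
  exact and_congr_right fun _ => and_congr_right fun _ => and_left_comm

theorem rv_jm {δ : ℝ} {Ψ : ℂ → ℂ} (j : JM L δ Ψ) : JM (rv L) δ fun z => Ψ (-z) := by
  have h1 := L.k_pos
  have h2 := L.k_lt
  have e : ∀ A : Set ℂ, (fun z => Ψ (-z)) '' A = Ψ '' (-A) := fun A => by
    rw [← image_neg_eq_neg, image_image]
  have n : ∀ ζ ∈ sphere (0 : ℂ) 1, -ζ ∈ sphere (0 : ℂ) 1 := fun ζ hζ => by simpa using hζ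
  refine ⟨j.pos, jm_neg j.jm, ?_, ?_, ?_, ?_, ?_, ?_⟩
  · rw [e, neg_ball, neg_zero, j.im, rv_dom hb]
  · rw [e, neg_sphere, neg_zero, j.bd, hb]
  · have a1 : (rv L).β 0 = L.β L.k := by rw [rv_lo (by omega), zero_add]
    have a2 : (rv L).β ((rv L).N - 1) = L.β (L.k - 1) := by
      rw [← rv_hi (j := L.k - 1) (by omega)]
      exact congrArg _ (by change L.N - 1 = _; omega)
    rw [neg_neg, j.b, a1, a2, add_comm]
  · have a1 : (rv L).β ((rv L).k - 1) = L.β (L.N - 1) := by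
      change (rv L).β (L.N - L.k - 1) = _
      rw [rv_lo (by omega)]
      exact congrArg _ (by omega)
    have a2 : (rv L).β (rv L).k = L.β 0 := by
      rw [← rv_hi h1, zero_add]; rfl
    rw [j.a, a1, a2, add_comm]
  · intro y hy
    obtain ⟨ζ, a, b, c⟩ := j.lo y (rv_arcP L ▸ hy)
    exact ⟨-ζ, n ζ a, by simpa using b, by rwa [neg_neg]⟩
  · intro y hy
    obtain ⟨ζ, a, b, c⟩ := j.up y (rv_arcM L ▸ hy)
    exact ⟨-ζ, n ζ a, by simpa using b, by rwa [neg_neg]⟩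

end

theorem rv_edge_succ (L : LDom) (h : V → ℤ) (i : ℕ) : L.edge h (i + 1) = step h (L.edge h i) :=
  Function.iterate_succ_apply' _ _ _

theorem rv_step {e : V × V} (h1 : h e.1 ≠ h e.2) (h2 : h (step h e).2 = h e.2) :
    step h (step h e).swap = e.swap := by
  obtain ⟨⟨a, b⟩, c, d⟩ := e
  by_cases k : h ((c, d) + (((a, b) - (c, d) : V).1 + ((a, b) - (c, d) : V).2,
      -((a, b) - (c, d) : V).1)) = h (a, b)
  · have e1 : step h ((a, b), (c, d)) = ((c + (a - c + (b - d)), d + -(a - c)), (c, d)) := if_pos k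
    have e2 : ((c + (a - c + (b - d)), d + -(a - c)) : V) +
        (c - (c + (a - c + (b - d))) + (d - (d + -(a - c))), -(c - (c + (a - c + (b - d))))) =
        (a, b) := by
      ext <;> simp only [Prod.fst_add, Prod.snd_add] <;> ring
    rw [e1, Prod.swap_prod_mk, step]
    simp only [Prod.fst_sub, Prod.snd_sub, e2]
    exact if_neg h1
  · have e1 : step h ((a, b), (c, d)) = ((a, b), (c + (a - c + (b - d)), d + -(a - c))) := if_neg k
    have e2 : ((a, b) : V) +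
        (c + (a - c + (b - d)) - a + (d + -(a - c) - b), -(c + (a - c + (b - d)) - a)) =
        (c, d) := by
      ext <;> simp only [Prod.fst_add, Prod.snd_add] <;> ring
    rw [e1] at h2
    rw [e1, Prod.swap_prod_mk, step]
    simp only [Prod.fst_sub, Prod.snd_sub, e2]
    exact if_pos h2.symm

theorem rv_val (hε : ε = 1 ∨ ε = -1) (hh : h ∈ L.Hts ε) (hl : Lat L ε h) :
    ∀ i ≤ L.len h, h (L.edge h i).1 = ε ∧ h (L.edge h i).2 = -ε := by
  have h1 := L.k_pos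
  have h2 := L.k_lt
  have v1 : ∀ i ≤ L.len h, (L.edge h i).1 ∈ L.vert := fun i hi =>
    rv_vert' L ▸ (hl.inl i hi).imp_right Or.inl
  have v2 : ∀ i ≤ L.len h, (L.edge h i).2 ∈ L.vert := fun i hi =>
    rv_vert' L ▸ (hl.inr i hi).imp_right Or.inr
  intro i
  induction i with
  | zero => exact fun _ => ⟨hh.2.2.1 0 h1, hh.2.2.2.1 (L.N - 1) (by omega) (by omega)⟩
  | succ i ih =>
    intro hi
    obtain ⟨a, b⟩ := ih (by omega)
    have k1 := hh.2.2.2.2 _ (v1 _ hi) _ (v2 _ hi) (hl.adj _ hi)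
    have k2 : h (L.edge h (i + 1)).2 = h (L.edge h i).2 ∨
        |h (L.edge h i).2 - h (L.edge h (i + 1)).2| = 0 ∨
        |h (L.edge h i).2 - h (L.edge h (i + 1)).2| = 2 :=
      (hl.str i hi).imp (congrArg h) (hh.2.2.2.2 _ (v2 _ (by omega)) _ (v2 _ hi))
    rw [rv_edge_succ, step] at k1 k2 ⊢
    split_ifs at k1 k2 ⊢ with k
    · exact ⟨k.trans a, b⟩
    · refine ⟨a, ?_⟩
      simp only [a, b, abs_eq_zero, abs_eq (zero_le_two (α := ℤ))] at k k1 k2 ⊢
      omega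

theorem rv_edge (hε : ε = 1 ∨ ε = -1) (hh : h ∈ L.Hts ε) (hl : Lat L ε h) :
    ∀ i ≤ L.len h, (rv L).edge h i = (L.edge h (L.len h - i)).swap := by
  have h1 := L.k_pos
  have h2 := L.k_lt
  intro i
  induction i with
  | zero =>
    intro _
    rw [Nat.sub_zero, hl.last]
    refine Prod.ext ?_ ?_
    · change (rv L).β 0 = L.β L.k
      rw [rv_lo (by omega), zero_add]
    · change (rv L).β (L.N - 1) = L.β (L.k - 1)
      rw [← rv_hi (j := L.k - 1) (by omega)]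
      exact congrArg _ (by omega)
  | succ i ih =>
    intro hi
    have e : L.len h - i = L.len h - (i + 1) + 1 := by omega
    have a := rv_val hε hh hl (L.len h - (i + 1)) (by omega)
    have b := rv_val hε hh hl (L.len h - (i + 1) + 1) (by omega)
    rw [rv_edge_succ, ih (by omega), e, rv_edge_succ]
    rw [rv_edge_succ] at b
    exact rv_step (by rw [a.1, a.2]; omega) (b.2.trans a.2.symm)

theorem rv_len (hε : ε = 1 ∨ ε = -1) (hh : h ∈ L.Hts ε) (hl : Lat L ε h) :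
    (rv L).len h = L.len h := by
  have h1 := L.k_pos
  have h2 := L.k_lt
  have e : ((rv L).β ((rv L).k - 1), (rv L).β (rv L).k) = (L.edge h 0).swap := by
    refine Prod.ext ?_ ?_
    · change (rv L).β (L.N - L.k - 1) = L.β (L.N - 1)
      rw [rv_lo (by omega)]
      exact congrArg _ (by omega)
    · change (rv L).β (L.N - L.k) = L.β 0
      rw [← rv_hi h1, zero_add]
  have m : L.len h ∈ {m | (rv L).edge h m = ((rv L).β ((rv L).k - 1), (rv L).β (rv L).k)} := by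
    change _ = _
    rw [e, rv_edge hε hh hl _ le_rfl, Nat.sub_self]
  refine le_antisymm (Nat.sInf_le m) (not_lt.1 fun k => ?_)
  have k1 : (rv L).edge h ((rv L).len h) = _ := Nat.sInf_mem ⟨_, m⟩
  rw [e, rv_edge hε hh hl _ k.le] at k1
  have k2 : L.edge h (L.len h - (rv L).len h) = L.edge h 0 := Prod.swap_injective k1
  have k3 : L.edge h ((rv L).len h) = (L.β (L.k - 1), L.β L.k) := by
    rw [← hl.last]
    conv_rhs => rw [← Nat.add_sub_cancel' k.le, LDom.edge, Function.iterate_add_apply]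
    exact congrArg _ k2.symm
  exact absurd (Nat.sInf_le (s := {m | L.edge h m = (L.β (L.k - 1), L.β L.k)}) k3) (not_le.2 k)

theorem rv_poly {p q : ℕ → ℂ} {M : ℕ} (e : ∀ i ≤ M, q i = p (M - i)) {s : ℝ}
    (hs : s ∈ Icc (0 : ℝ) 1) : poly q M s = poly p M (1 - s) := by
  have h0 : 0 ≤ M * s := mul_nonneg M.cast_nonneg hs.1
  have h1 : M * s ≤ M := mul_le_of_le_one_right M.cast_nonneg hs.2
  have f : ∀ x : ℝ, 0 ≤ x → Int.fract x = x - ⌊x⌋₊ := fun x hx => by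
    rw [Int.fract, natCast_floor_eq_intCast_floor hx]
  have j1 := Nat.floor_le h0
  have j2 := Nat.lt_floor_add_one (M * s)
  have j3 : ⌊M * s⌋₊ ≤ M := Nat.floor_le_of_le h1
  have h2 : 0 ≤ M * (1 - s) := mul_nonneg M.cast_nonneg (sub_nonneg.2 hs.2)
  rw [poly, poly, f _ h0, f _ h2]
  generalize ⌊M * s⌋₊ = j at j1 j2 j3
  rcases j1.eq_or_lt with k | k
  · have k1 : M * (1 - s) = (M - j : ℕ) := by rw [Nat.cast_sub j3, k]; ring
    rw [k1, Nat.floor_natCast, ← k, e j j3]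
    simp
  · have k0 : j < M := by exact_mod_cast k.trans_le h1
    have k1 : ((M - (j + 1) : ℕ) : ℝ) = M - (j + 1) := by rw [Nat.cast_sub k0]; push_cast; ring
    have k2 : ⌊M * (1 - s)⌋₊ = M - (j + 1) :=
      (Nat.floor_eq_iff h2).2 ⟨by rw [k1]; linarith, by rw [k1]; linarith⟩
    rw [k2, k1, e j j3, e (j + 1) k0, show M - (j + 1) + 1 = M - j by omega]
    push_cast
    ring

theorem rv_gm (hε : ε = 1 ∨ ε = -1) (hh : h ∈ L.Hts ε) (hl : Lat L ε h) (δ : ℝ) {s : ℝ}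
    (hs : s ∈ Icc (0 : ℝ) 1) : gm (rv L) δ h s = gm L δ h (1 - s) := by
  rw [gm, gm, rv_len hε hh hl, rv_poly (p := mid L h) (fun i hi => ?_) hs]
  rw [mid, mid, rv_edge hε hh hl i hi, Prod.fst_swap, Prod.snd_swap, add_comm]

theorem rev_of (h1 : A2.S_lat) (h2 : ∀ L : LDom, (rv L).bd '' Icc 0 1 = L.bd '' Icc 0 1)
    (h3 : ∀ ψ L δ, IsJordanMap ψ → Approx ψ L δ → Approx (fun z => ψ (-z)) (fun n => rv (L n)) δ) :
    REV := by
  intro ψ L δ ε Ψ hψ hL hε hΨ
  refine ⟨fun n => rv (L n), h3 ψ L δ hψ hL, ⟨?_, hΨ.2.mono fun n j => rv_jm (h2 _) j⟩,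
    fun n => rv_hts (h2 _) ε, (h1 ψ L δ ε hψ hL hε).mono fun n a h hh s hs =>
      rv_gm hε hh (a h hh) _ hs⟩
  exact (hΨ.1.comp fun z => -z).mono fun z hz => by simpa using hz

end Vale.Agent.P153.SLE
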